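import Crest.Agent.X262.Sym65.Sym

/-!
# Row 262, road B, TWO-STEP (helper65), part 7: the excess class of an extension

* `two`, `twoStmt`.
-/

set_option autoImplicit false
set_option linter.unusedSectionVars false

noncomputable section

namespace Crest.Agent.X262.Sym65

open Crest.Agent.X277 Crest.Agent.X277.BD Crest.Agent.X277.Pst Crest.Agent.X277.BD.Cyc Polynomial
open Crest.Agent.X262.Geo (od)
open Crest.Agent.X262.Hb

section Alg

variable {R : Type*} [CommRing R]

theorem divX_mul (p r : R[X]) : (p * r).divX = p.divX * r + C (p.coeff 0) * r.divX := by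
  refine isRegular_X.left ?_
  have h1 := X_mul_divX_add (p * r)
  have h2 := X_mul_divX_add p
  have h3 := X_mul_divX_add r
  rw [mul_coeff_zero, C_mul] at h1
  change X * _ = X * _
  linear_combination h1 - r * h2 - C (p.coeff 0) * h3

theorem eval_divX (p : R[X]) (x : R) : x * (-p.divX).eval x = p.eval 0 - p.eval x := by
  have h := congrArg (eval x) (X_mul_divX_add p)
  rw [eval_add, eval_mul, eval_X, eval_C, coeff_zero_eq_eval_zero] at h
  rw [eval_neg]
  linear_combination -h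

theorem two_alg (p r : R[X]) (g e : R) (h : p.eval (g + e) = 0) :
    (-(p * r).divX).eval g = (-p.divX).eval (g + e) * r.eval 0 +
      e * ((-p.divX).eval (g + e) * (-r.divX).eval g) +
      e * ((-((-p.divX).comp (X + C g)).divX).eval e * r.eval g) := by
  have h1 := eval_divX p (g + e)
  have h2 := eval_divX r g
  have h3 := eval_divX ((-p.divX).comp (X + C g)) e
  simp only [eval_comp, eval_add, eval_X, eval_C, zero_add, add_comm e g] at h3
  rw [h, sub_zero] at h1
  rw [divX_mul, neg_add, eval_add, eval_neg (_ * _), eval_neg (_ * _), eval_mul, eval_mul, eval_C,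
    coeff_zero_eq_eval_zero, ← h1]
  simp only [eval_neg] at h2 h3 ⊢
  linear_combination (-r.eval g) * h3 - p.divX.eval (g + e) * h2

end Alg

variable {K : Type} [Field K] [Algebra ℂ K] {B : Th} {D H : BD ℂ K} {P R : PX B K} {ψ : PF B K}
  {V : RZ ℂ K}

theorem lt_of_sub_inf (h : (D - D ⊓ H).val V ≠ 1) : H.val V < D.val V :=
  lt_of_not_ge fun h1 => h (by rw [val_sub, val_inf, min_eq_left h1, div_self (val_ne _ _)])

theorem cf_inf (hB : B.Ax) {E : Type} [Field E] [Algebra ℂ E] (p : LP K E)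
    (h : H.val p.V < D.val p.V) : cf B (D ⊓ H) E p = cf B H E p :=
  cf_congr hB p fun U hU => by rw [val_inf, min_eq_right (lt_of_le hU h).le]

variable [Algebra.EssFiniteType ℂ K]

open Classical in
/-- **two steps** -/
theorem two (hB : B.Ax) (hD : 0 ≤ D) (hH : 0 ≤ H) (hP : LivX B (Sup (D ⊓ H)) P)
    (hR : LivX B (Sup (D ⊓ H)) R) (hψ : Liv B (Sup (D ⊓ H)) ψ)
    (h1 : ∀ (E : Type) [Field E] [Algebra ℂ E] [Algebra.EssFiniteType ℂ E] (p : LP K E),
      p.V ∈ Sup (D ⊓ H) → pv P (cf B D) E p = 0)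
    (h2 : ∀ (E : Type) [Field E] [Algebra ℂ E] [Algebra.EssFiniteType ℂ E] (p : LP K E),
      p.V ∈ Sup H → H.val p.V < D.val p.V → pv R (cf B H) E p = 0) :
    sm (D ⊓ H) (i1 (qv (P * R) (cf B (D ⊓ H)) * ψ)) =
      sm D fun V => if H.val V = 1 then
        sm ((plV V).res H) (i2 (qv P (cf B D) * qv R (cf B H) * ψ) V)
      else i1 (qv P (cf B D) * pv R 0 * ψ) V := by
  set G := D ⊓ H with hG
  have g0 : 0 ≤ G := le_inf hD hH
  have hd : cf B D = cf B G + cf B (D - G) := by rw [← cf_add, add_sub_cancel]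
  let φ₁ := qv P (cf B D) * pv R 0 * ψ
  let φ₂ := qv P (cf B D) * qv R (cf B G) * ψ
  let S : PX B K := fun E _ _ p => (-(P E p).divX).comp (X + C (cf B G E p))
  let φ₃ := qv S (cf B (D - G)) * pv R (cf B G) * ψ
  have l₁ : Liv B (Sup G) φ₁ := ((hP.qv (.cf hB D)).mul (hR.pv .zero)).mul hψ
  have l₂ : Liv B (Sup G) φ₂ := ((hP.qv (.cf hB D)).mul (hR.qv (.cf hB G))).mul hψ
  have l₃ : Liv B (Sup G) φ₃ :=
    (((hP.divX.neg.comp (LivX.X.add (Liv.cf hB G).C)).qv (.cf hB _)).mul (hR.pv (.cf hB G))).mul hψ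
  have k : ∀ (E : Type) [Field E] [Algebra ℂ E] [Algebra.EssFiniteType ℂ E] (p : LP K E),
      p.V ∈ Sup G → (D - G).val p.V ≠ 1 → pv R (cf B G) E p = 0 := fun E _ _ _ p h3 h4 => by
    have h5 := lt_of_sub_inf h4
    rw [pv, cf_inf hB p h5]
    exact h2 E p (sup_mono g0 inf_le_right h3) h5
  have e1 : ∀ V, Dvs V → od V G ≠ 0 → i1 (qv (P * R) (cf B G) * ψ) V =
      i1 φ₁ V + i1 (cf B (D - G) * φ₂) V := fun V hV h3 => by
    have := Geo.essFT_Rf hV
    have h4 := (mem_sup hV).2 h3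
    have h5 : i1 (cf B (D - G) * φ₃) V = 0 := by
      by_cases h5 : (D - G).val V = 1
      · rw [i1_cf hB l₃ hV h4 h5]
        refine sm_eq_zero fun W hW h6 => ?_
        have := Geo.essFT_Rf hW
        have h7 := k _ (fl V W) (cl_sup G _ _ (fl_le V W) h4) fun h7 =>
          h6 ((Geo.od_eq_zero hW).2 ((val_res_one_iff h5).2 h7))
        simp only [i2, φ₃, Pi.mul_apply, h7, mul_zero, zero_mul, map_zero]
      · simp only [i1, φ₃, Pi.mul_apply, k _ (LP.at V) h4 h5, mul_zero, zero_mul, map_zero]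
    have h6 := h1 _ (LP.at V) h4
    rw [← add_zero (_ + _), ← h5, ← i1_add, ← i1_add]
    refine congrArg (B.itg _) ?_
    simp only [φ₁, φ₂, φ₃, S, hd, qv, pv, Pi.mul_apply, Pi.add_apply, Pi.zero_apply] at h6 ⊢
    rw [two_alg _ _ _ _ h6]
    ring
  have f₁ : Fs G (i1 φ₁) := fin_i1 hB l₁ fun V hV => (mem_sup hV).2
  rw [sm_congr e1, sm_add f₁ (fin_i1 hB ((Liv.cf hB _).mul l₂) fun V hV => (mem_sup hV).2),
    sym hB g0 l₂]
  refine (sm_add' f₁ (fin_cut hB g0 l₂ _) fun V hV => ?_).2.symm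
  have := Geo.essFT_Rf hV
  have o1 : od V D = od V G + od V (D - G) := by rw [← map_add, add_sub_cancel]
  have o2 := Geo.od_nonneg (V := V) g0
  have o3 : 0 ≤ od V (D - G) := Geo.od_nonneg (sub_nonneg.2 inf_le_left)
  by_cases h3 : od V D = 0
  · rw [h3, show od V G = 0 by omega, show od V (D - G) = 0 by omega]
    simp
  split_ifs with h4
  · have h5 : G.val V = 1 := by
      rw [hG, val_inf, h4]
      exact min_eq_right (hD V)
    have h6 : H.val V < D.val V := h4 ▸ lt_of_le_of_ne (hD V) fun e =>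
      h3 ((Geo.od_eq_zero hV).2 e.symm)
    have h7 : (plV V).res G = (plV V).res H := ext' fun W => (val_res_eq_iff h5 h4).2 (by
      rw [hG, val_inf, min_eq_right (lt_of_le (fl_le V W) h6).le])
    rw [o1, (Geo.od_eq_zero hV).2 h5, cut, if_pos h5, h7]
    simp only [zero_add, Int.cast_zero, zero_mul]
    congr 2
    funext W
    simp only [i2, φ₂, Pi.mul_apply, qv, hG, cf_inf hB (fl V W) (lt_of_le (fl_le V W) h6)]
  · have h5 : V ∈ Sup G := by
      rw [hG, sup_inf hD hH]
      exact ⟨(mem_sup hV).2 h3, h4⟩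
    rw [o1, Int.cast_add, add_mul, cut, if_neg h5]
    by_cases h6 : od V (D - G) = 0
    · simp [h6, φ₁]
    · have h7 := k _ (LP.at V) h5 ((Geo.od_eq_zero hV).not.1 h6)
      congr 2
      refine congrArg (B.itg _) ?_
      have h8 := eval_divX (R _ (LP.at V)) (cf B G _ (LP.at V))
      simp only [φ₂, qv, pv, Pi.mul_apply, Pi.zero_apply] at h7 ⊢
      rw [h7, sub_zero] at h8
      rw [← h8]
      ring

theorem twoStmt : TwoStmt := fun _ hB _ _ _ _ _ _ _ _ _ hD hH hP hR hψ h1 h2 =>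
  two hB hD hH hP hR hψ h1 h2

end Crest.Agent.X262.Sym65
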