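import Crest.Agent.X262.Sym65.Defs
import Crest.Agent.X262.Hb.Bas

/-!
# Row 262, road B, SYM and TWO-STEP (helper65), part 5: calculus of families

* `Liv.mono/congr/add/mul/neg/sub/smul/sum/prod/pow/glob/cf/on`, the same for `LivX`;
  `LivX.pv`, `LivX.qv`, `LivX.coeff`, `LivX.divX`, `Liv.C`;
* `Lc.desc`, `Lc.van` : descent to the field of the values, vanishing;
* `Fs a f` : finite support; `sm_congr`, `sm_add`, `sm_add_left`, ..., `fin_i1`, `fin_i2`;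
* `i1_cf` : `∫_V c1(a) φ = ∑_W ord_W (a|V) ∫_W φ`;  `cf_congr`.
-/

set_option autoImplicit false
set_option linter.unusedSectionVars false

noncomputable section

namespace Crest.Agent.X262.Sym65

open Crest.Agent.X277 Crest.Agent.X277.BD Crest.Agent.X277.Pst Crest.Agent.X277.BD.Cyc Polynomial
open Crest.Agent.X262.Geo (od)
open Crest.Agent.X262.Hb

variable {K E L E₀ : Type} [Field K] [Algebra ℂ K] [Field E] [Algebra ℂ E] [Field L] [Algebra ℂ L]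
  [Field E₀] [Algebra ℂ E₀]

/-! ### values -/

section Vl

variable {p : LP K E} {t : K} {T T' : Finset K} {z : K → Option E₀} {α : E₀ →ₐ[ℂ] E}

theorem vl_of_mem (h : t ∈ p.V.1) : vl p t = some (p.r t) := if_pos h

theorem vl_of_not_mem (h : t ∉ p.V.1) : vl p t = none := if_neg h

theorem vl_comp (p : LP K E) (q : LP E L) (t : K) : vl (p.comp q) t = (vl p t).bind (vl q) := by
  by_cases h : t ∈ p.V.1
  · rw [vl_of_mem h, Option.bind_some]
    by_cases h1 : p.r t ∈ q.V.1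
    · rw [vl_of_mem h1, vl_of_mem (p := p.comp q) ⟨h, h1⟩, LP.r_comp]
    · rw [vl_of_not_mem h1, vl_of_not_mem (p := p.comp q) fun h2 => h1 h2.2]
  · rw [vl_of_not_mem h, vl_of_not_mem (p := p.comp q) fun h2 => h h2.1, Option.bind_none]

theorem Vals.mono (h : Vals T' z α p) (hT : T ⊆ T') : Vals T z α p := fun t ht => h t (hT ht)

theorem Vals.r (h : Vals T z α p) (ht : t ∈ T) : p.r t = α ((z t).getD 0) := by
  have h1 := h t ht
  by_cases h2 : t ∈ p.V.1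
  · rw [vl_of_mem h2] at h1
    obtain ⟨y, h3, h4⟩ := Option.map_eq_some_iff.1 h1.symm
    rw [h3, Option.getD_some, h4]
  · rw [vl_of_not_mem h2] at h1
    rw [Option.map_eq_none_iff.1 h1.symm, Option.getD_none, map_zero, p.r_of_not_mem h2]

theorem Vals.mem_iff (h : Vals T z α p) (ht : t ∈ T) : t ∈ p.V.1 ↔ (z t).isSome := by
  rw [← Option.isSome_map (f := α), ← h t ht]
  by_cases h2 : t ∈ p.V.1
  · simp [vl_of_mem h2, h2]
  · simp [vl_of_not_mem h2, h2]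

theorem exists_vals (h : ∀ t ∈ T, ∃ y, α y = p.r t) : ∃ z : K → Option E₀, Vals T z α p := by
  classical
  refine ⟨fun t => if h : t ∈ p.V.1 ∧ ∃ y, α y = p.r t then some h.2.choose else none,
    fun t ht => ?_⟩
  by_cases h1 : t ∈ p.V.1
  · simp only [dif_pos (And.intro h1 (h t ht)), vl_of_mem h1, Option.map_some,
      (h t ht).choose_spec]
  · simp only [dif_neg (show ¬ (t ∈ p.V.1 ∧ ∃ y, α y = p.r t) from fun h2 => h1 h2.1),
      vl_of_not_mem h1, Option.map_none]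

end Vl

variable {B : Th} {Z Z' : Set (RZ ℂ K)} {φ ψ : PF B K} {Φ Ψ : PX B K} {T T' : Finset K}

/-- the family is defined by the values of the members of `T` -/
def Lc (B : Th) (Z : Set (RZ ℂ K)) (φ : PF B K) (T : Finset K) : Prop :=
  ∀ (E₀ : Type) [Field E₀] [Algebra ℂ E₀] [Algebra.EssFiniteType ℂ E₀]
    (z : K → Option E₀), ∃ x : B.H E₀, ∀ (E : Type) [Field E] [Algebra ℂ E]
    [Algebra.EssFiniteType ℂ E] (α : E₀ →ₐ[ℂ] E) (p : LP K E), p.V ∈ Z → Vals T z α p →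
    φ E p = B.pb (LP.hom α) x

theorem Liv.lc (h : Liv B Z φ) : ∃ T, Lc B Z φ T := h.loc

theorem Lc.mono (h : Lc B Z φ T) (hT : T ⊆ T') : Lc B Z φ T' := fun E₀ _ _ _ z =>
  (h E₀ z).imp fun _ hx E _ _ _ α p hp hv => hx E α p hp (hv.mono hT)

/-- descent to a field which contains the values -/
theorem Lc.desc [Algebra.EssFiniteType ℂ E₀] [Algebra.EssFiniteType ℂ E] (h : Lc B Z φ T)
    {p : LP K E} (hp : p.V ∈ Z) (α : E₀ →ₐ[ℂ] E) (hα : ∀ t ∈ T, ∃ y, α y = p.r t) :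
    ∃ x, φ E p = B.pb (LP.hom α) x := by
  obtain ⟨z, hz⟩ := exists_vals hα
  obtain ⟨x, hx⟩ := h E₀ z
  exact ⟨x, hx E α p hp hz⟩

/-- the integral vanishes if the values lie in a field of smaller dimension -/
theorem Lc.van (hB : B.Ax) [Algebra.EssFiniteType ℂ E₀] [Algebra.EssFiniteType ℂ E]
    (h : Lc B Z φ T) {p : LP K E} (hp : p.V ∈ Z) (α : E₀ →ₐ[ℂ] E)
    (hα : ∀ t ∈ T, ∃ y, α y = p.r t) (hd : dim ℂ E ≠ dim ℂ E₀) : B.itg E (φ E p) = 0 := by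
  obtain ⟨x, hx⟩ := h.desc hp α hα
  rw [hx, hB.van α hd]

/-- restriction of a family along a place -/
def PF.on (φ : PF B K) (p : LP K L) : PF B L := fun E _ _ q => φ E (p.comp q)

/-- restriction of a family of polynomials along a place -/
def PX.on (Φ : PX B K) (p : LP K L) : PX B L := fun E _ _ q => Φ E (p.comp q)

theorem i2_eq (φ : PF B K) (V : RZ ℂ K) : i2 φ V = i1 (φ.on (LP.at V)) := rfl

theorem vals_comp [DecidableEq L] {p : LP K L} {q : LP L E} {z : L → Option E₀} {α : E₀ →ₐ[ℂ] E}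
    (h : Vals (T.image p.r) z α q) : Vals T (fun t => (vl p t).bind z) α (p.comp q) := fun t ht => by
  rw [vl_comp]
  by_cases h1 : t ∈ p.V.1
  · simp only [vl_of_mem h1, Option.bind_some]
    exact h _ (Finset.mem_image_of_mem _ ht)
  · simp only [vl_of_not_mem h1, Option.bind_none, Option.map_none]

namespace Liv

theorem mono (h : Liv B Z φ) (hZ : Z' ⊆ Z) : Liv B Z' φ :=
  ⟨fun E L _ _ _ _ _ _ p q hp => h.nat E L p q (hZ hp), h.loc.imp fun _ hT E₀ _ _ _ z =>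
    (hT E₀ z).imp fun _ hx E _ _ _ α p hp hv => hx E α p (hZ hp) hv⟩

/-- `Z` is closed under specialisation -/
def _root_.Crest.Agent.X262.Sym65.Cl (Z : Set (RZ ℂ K)) : Prop :=
  ∀ U V : RZ ℂ K, U.1 ≤ V.1 → V ∈ Z → U ∈ Z

theorem congr (h : Liv B Z φ) (hZ : Cl Z) (he : ∀ (E : Type) [Field E] [Algebra ℂ E]
    [Algebra.EssFiniteType ℂ E] (p : LP K E), p.V ∈ Z → φ E p = ψ E p) : Liv B Z ψ :=
  ⟨fun E L _ _ _ _ _ _ p q hp => by
    rw [← he E p hp, ← he L _ (hZ _ _ (Pl.cm_le q.V) hp), h.nat E L p q hp],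
    h.loc.imp fun _ hT E₀ _ _ _ z =>
      (hT E₀ z).imp fun _ hx E _ _ _ α p hp hv => (he E p hp).symm.trans (hx E α p hp hv)⟩

theorem bin (h : Liv B Z φ) (h' : Liv B Z ψ)
    (f : ∀ (E : Type) [Field E] [Algebra ℂ E], B.H E → B.H E → B.H E)
    (hf : ∀ (E L : Type) [Field E] [Algebra ℂ E] [Field L] [Algebra ℂ L] (q : LP E L) (x y : B.H E),
      f L (B.pb q x) (B.pb q y) = B.pb q (f E x y)) :
    Liv B Z fun E _ _ p => f E (φ E p) (ψ E p) := by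
  classical
  refine ⟨fun E L _ _ _ _ _ _ p q hp => by rw [h.nat E L p q hp, h'.nat E L p q hp, hf], ?_⟩
  obtain ⟨T, hT⟩ := h.lc
  obtain ⟨T', hT'⟩ := h'.lc
  refine ⟨T ∪ T', fun E₀ _ _ _ z => ?_⟩
  obtain ⟨x, hx⟩ := hT.mono (Finset.subset_union_left (s₂ := T')) E₀ z
  obtain ⟨y, hy⟩ := hT'.mono (Finset.subset_union_right (s₁ := T)) E₀ z
  exact ⟨f E₀ x y, fun E _ _ _ α p hp hv => by rw [hx E α p hp hv, hy E α p hp hv, hf]⟩

theorem add (h : Liv B Z φ) (h' : Liv B Z ψ) : Liv B Z (φ + ψ) :=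
  h.bin h' (fun _ _ _ x y => x + y) fun _ _ _ _ _ _ q x y => (map_add (B.pb q) x y).symm

theorem mul (h : Liv B Z φ) (h' : Liv B Z ψ) : Liv B Z (φ * ψ) :=
  h.bin h' (fun _ _ _ x y => x * y) fun _ _ _ _ _ _ q x y => (map_mul (B.pb q) x y).symm

theorem sub (h : Liv B Z φ) (h' : Liv B Z ψ) : Liv B Z (φ - ψ) :=
  h.bin h' (fun _ _ _ x y => x - y) fun _ _ _ _ _ _ q x y => (map_sub (B.pb q) x y).symm

theorem neg (h : Liv B Z φ) : Liv B Z (-φ) :=
  h.bin h (fun _ _ _ x _ => -x) fun _ _ _ _ _ _ q x _ => (map_neg (B.pb q) x).symm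

theorem smul (h : Liv B Z φ) (c : ℂ) : Liv B Z (c • φ) :=
  h.bin h (fun _ _ _ x _ => c • x) fun _ _ _ _ _ _ q x _ => (map_smul (B.pb q) c x).symm

theorem pow (h : Liv B Z φ) (n : ℕ) : Liv B Z (φ ^ n) :=
  h.bin h (fun _ _ _ x _ => x ^ n) fun _ _ _ _ _ _ q x _ => (map_pow (B.pb q) x n).symm

theorem zero : Liv B Z 0 :=
  ⟨fun _ _ _ _ _ _ _ _ _ q _ => (map_zero (B.pb q)).symm,
    ∅, fun _ _ _ _ _ => ⟨0, fun _ _ _ _ α _ _ _ => (map_zero (B.pb (LP.hom α))).symm⟩⟩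

theorem one : Liv B Z 1 :=
  ⟨fun _ _ _ _ _ _ _ _ _ q _ => (map_one (B.pb q)).symm,
    ∅, fun _ _ _ _ _ => ⟨1, fun _ _ _ _ α _ _ _ => (map_one (B.pb (LP.hom α))).symm⟩⟩

theorem sum {ι : Type*} {s : Finset ι} {f : ι → PF B K} (h : ∀ i ∈ s, Liv B Z (f i)) :
    Liv B Z (∑ i ∈ s, f i) :=
  Finset.sum_induction f (Liv B Z) (fun _ _ => add) zero h

theorem prod {ι : Type*} {s : Finset ι} {f : ι → PF B K} (h : ∀ i ∈ s, Liv B Z (f i)) :
    Liv B Z (∏ i ∈ s, f i) :=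
  Finset.prod_induction f (Liv B Z) (fun _ _ => mul) one h

/-- the restrictions of a global class -/
theorem glob (hB : B.Ax) (x : B.H K) : Liv B Z fun _ _ _ p => B.pb p x := by
  refine ⟨fun E L _ _ _ _ _ _ p q _ => hB.pb_comp p q x, ?_⟩
  obtain ⟨s, Φ, h1, h2⟩ := hB.loc x
  refine ⟨s, fun E₀ _ _ _ z => ⟨Φ E₀ fun f => (z f).getD 0, fun E _ _ _ α p _ hv => ?_⟩⟩
  rw [h1, ← h2]
  exact congrArg _ (funext fun f => hv.r f.2)

theorem cf (hB : B.Ax) (a : BD ℂ K) : Liv B Z (cf B a) := glob hB _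

theorem on (h : Liv B Z φ) (p : LP K L) : Liv B (p.cm ⁻¹' Z) (φ.on p) := by
  classical
  refine ⟨fun E M _ _ _ _ _ _ q q' hq => ?_, ?_⟩
  · exact (congrArg (φ M) (p.comp_assoc q q').symm).trans (h.nat E M (p.comp q) q' hq)
  · obtain ⟨T, hT⟩ := h.lc
    exact ⟨T.image p.r, fun E₀ _ _ _ z => (hT E₀ fun t => (vl p t).bind z).imp
      fun _ hx E _ _ _ α q hq hv => hx E α (p.comp q) hq (vals_comp hv)⟩

theorem C (h : Liv B Z φ) : LivX B Z fun E _ _ p => C (φ E p) :=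
  ⟨fun E L _ _ _ _ _ _ p q hp => by rw [h.nat E L p q hp, map_C]; rfl,
    h.loc.imp fun _ hT E₀ _ _ _ z => (hT E₀ z).elim fun x hx =>
      ⟨Polynomial.C x, fun E _ _ _ α p hp hv => by rw [hx E α p hp hv, map_C]; rfl⟩⟩

end Liv

theorem map_divX {R S : Type*} [CommRing R] [CommRing S] (f : R →+* S) (p : R[X]) :
    p.divX.map f = (p.map f).divX := by
  ext n
  simp only [coeff_map, coeff_divX]

namespace LivX

theorem mono (h : LivX B Z Φ) (hZ : Z' ⊆ Z) : LivX B Z' Φ :=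
  ⟨fun E L _ _ _ _ _ _ p q hp => h.nat E L p q (hZ hp), h.loc.imp fun _ hT E₀ _ _ _ z =>
    (hT E₀ z).imp fun _ hx E _ _ _ α p hp hv => hx E α p (hZ hp) hv⟩

theorem congr (h : LivX B Z Φ) (hZ : Cl Z) (he : ∀ (E : Type) [Field E] [Algebra ℂ E]
    [Algebra.EssFiniteType ℂ E] (p : LP K E), p.V ∈ Z → Φ E p = Ψ E p) : LivX B Z Ψ :=
  ⟨fun E L _ _ _ _ _ _ p q hp => by
    rw [← he E p hp, ← he L _ (hZ _ _ (Pl.cm_le q.V) hp), h.nat E L p q hp],
    h.loc.imp fun _ hT E₀ _ _ _ z =>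
      (hT E₀ z).imp fun _ hx E _ _ _ α p hp hv => (he E p hp).symm.trans (hx E α p hp hv)⟩

theorem bin (h : LivX B Z Φ) (h' : LivX B Z Ψ)
    (f : ∀ (E : Type) [Field E] [Algebra ℂ E], (B.H E)[X] → (B.H E)[X] → (B.H E)[X])
    (hf : ∀ (E L : Type) [Field E] [Algebra ℂ E] [Field L] [Algebra ℂ L] (q : LP E L)
      (x y : (B.H E)[X]), f L (x.map (B.pb q : B.H E →+* B.H L)) (y.map (B.pb q : B.H E →+* B.H L)) =
        (f E x y).map (B.pb q : B.H E →+* B.H L)) :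
    LivX B Z fun E _ _ p => f E (Φ E p) (Ψ E p) := by
  classical
  refine ⟨fun E L _ _ _ _ _ _ p q hp => by rw [h.nat E L p q hp, h'.nat E L p q hp, hf], ?_⟩
  obtain ⟨T, hT⟩ := h.loc
  obtain ⟨T', hT'⟩ := h'.loc
  refine ⟨T ∪ T', fun E₀ _ _ _ z => ?_⟩
  obtain ⟨x, hx⟩ := hT E₀ z
  obtain ⟨y, hy⟩ := hT' E₀ z
  exact ⟨f E₀ x y, fun E _ _ _ α p hp hv => by
    rw [hx E α p hp (hv.mono Finset.subset_union_left),
      hy E α p hp (hv.mono Finset.subset_union_right), hf]⟩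

theorem add (h : LivX B Z Φ) (h' : LivX B Z Ψ) : LivX B Z (Φ + Ψ) :=
  h.bin h' (fun _ _ _ x y => x + y) fun _ _ _ _ _ _ _ _ _ => (Polynomial.map_add _).symm

theorem mul (h : LivX B Z Φ) (h' : LivX B Z Ψ) : LivX B Z (Φ * Ψ) :=
  h.bin h' (fun _ _ _ x y => x * y) fun _ _ _ _ _ _ _ _ _ => (Polynomial.map_mul _).symm

theorem sub (h : LivX B Z Φ) (h' : LivX B Z Ψ) : LivX B Z (Φ - Ψ) :=
  h.bin h' (fun _ _ _ x y => x - y) fun _ _ _ _ _ _ _ _ _ => (Polynomial.map_sub _).symm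

theorem neg (h : LivX B Z Φ) : LivX B Z (-Φ) :=
  h.bin h (fun _ _ _ x _ => -x) fun _ _ _ _ _ _ _ _ _ => (Polynomial.map_neg _).symm

theorem pow (h : LivX B Z Φ) (n : ℕ) : LivX B Z (Φ ^ n) :=
  h.bin h (fun _ _ _ x _ => x ^ n) fun _ _ _ _ _ _ _ _ _ => (Polynomial.map_pow _ _).symm

theorem divX (h : LivX B Z Φ) : LivX B Z fun E _ _ p => (Φ E p).divX :=
  h.bin h (fun _ _ _ x _ => x.divX) fun _ _ _ _ _ _ _ _ _ => (map_divX _ _).symm

theorem comp (h : LivX B Z Φ) (h' : LivX B Z Ψ) : LivX B Z fun E _ _ p => (Φ E p).comp (Ψ E p) :=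
  h.bin h' (fun _ _ _ x y => x.comp y) fun _ _ _ _ _ _ _ _ _ => (Polynomial.map_comp _ _ _).symm

theorem one : LivX B Z 1 := Liv.C (Liv.one (B := B) (Z := Z))

theorem zero : LivX B Z 0 := by simpa using (one (B := B) (Z := Z)).sub one

theorem X : LivX B Z fun _ _ _ _ => X :=
  ⟨fun _ _ _ _ _ _ _ _ _ _ _ => (map_X _).symm,
    ∅, fun _ _ _ _ _ => ⟨Polynomial.X, fun _ _ _ _ _ _ _ _ => (map_X _).symm⟩⟩

theorem sum {ι : Type*} {s : Finset ι} {f : ι → PX B K} (h : ∀ i ∈ s, LivX B Z (f i)) :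
    LivX B Z (∑ i ∈ s, f i) :=
  Finset.sum_induction f (LivX B Z) (fun _ _ => add) zero h

theorem prod {ι : Type*} {s : Finset ι} {f : ι → PX B K} (h : ∀ i ∈ s, LivX B Z (f i)) :
    LivX B Z (∏ i ∈ s, f i) :=
  Finset.prod_induction f (LivX B Z) (fun _ _ => mul) one h

theorem coeff (h : LivX B Z Φ) (n : ℕ) : Liv B Z fun E _ _ p => (Φ E p).coeff n :=
  ⟨fun E L _ _ _ _ _ _ p q hp => by rw [h.nat E L p q hp, coeff_map]; rfl,
    h.loc.imp fun _ hT E₀ _ _ _ z => (hT E₀ z).elim fun x hx =>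
      ⟨x.coeff n, fun E _ _ _ α p hp hv => by rw [hx E α p hp hv, coeff_map]; rfl⟩⟩

theorem pv (h : LivX B Z Φ) (h' : Liv B Z φ) : Liv B Z (pv Φ φ) := by
  have h1 := (h.comp h'.C).coeff 0
  simp only [comp_C, coeff_C_zero] at h1
  exact h1

theorem qv (h : LivX B Z Φ) (h' : Liv B Z φ) : Liv B Z (qv Φ φ) := h.divX.neg.pv h'

/-- the restrictions of a global polynomial -/
theorem glob (hB : B.Ax) (x : (B.H K)[X]) :
    LivX B Z fun E _ _ p => x.map (B.pb p : B.H K →+* B.H E) := by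
  induction x using Polynomial.induction_on' with
  | add x y hx hy =>
    simp only [Polynomial.map_add]
    exact hx.add hy
  | monomial n a =>
    simp only [← C_mul_X_pow_eq_monomial, Polynomial.map_mul, map_C, Polynomial.map_pow, map_X]
    exact (Liv.glob hB a).C.mul (X.pow n)

theorem on (h : LivX B Z Φ) (p : LP K L) : LivX B (p.cm ⁻¹' Z) (Φ.on p) := by
  classical
  refine ⟨fun E M _ _ _ _ _ _ q q' hq => ?_, ?_⟩
  · exact (congrArg (Φ M) (p.comp_assoc q q').symm).trans (h.nat E M (p.comp q) q' hq)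
  · obtain ⟨T, hT⟩ := h.loc
    exact ⟨T.image p.r, fun E₀ _ _ _ z => (hT E₀ fun t => (vl p t).bind z).imp
      fun _ hx E _ _ _ α q hq hv => hx E α (p.comp q) hq (vals_comp hv)⟩

end LivX

/-! ### supports and sums -/

variable {a b D : BD ℂ K} {f g : RZ ℂ K → ℂ} {U V : RZ ℂ K}

theorem one_of_le (h : U.1 ≤ V.1) (h1 : a.val U = 1) : a.val V = 1 := by
  rw [← val_of_le (g := 1) h (by rw [h1, map_one]), map_one]

theorem lt_of_le (h : U.1 ≤ V.1) (h1 : a.val V < b.val V) : a.val U < b.val U :=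
  lt_of_not_ge fun h2 => h1.not_ge (by
    rw [← val_of_le h (v_gen a U), ← val_of_le h (v_gen b U)]
    exact RZ.le_of_le h (by rwa [v_gen, v_gen]))

theorem cl_sup (D : BD ℂ K) : Cl (Sup D) := fun _ _ h h1 h2 => h1 (one_of_le h h2)

theorem Cl.inter (h : Cl Z) (h' : Cl Z') : Cl (Z ∩ Z') :=
  fun U V h1 h2 => ⟨h U V h1 h2.1, h' U V h1 h2.2⟩

theorem sup_mono (h0 : 0 ≤ a) (h : a ≤ b) : Sup a ⊆ Sup b :=
  fun V h1 h2 => h1 (le_antisymm (h2 ▸ h V) (h0 V))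

theorem sup_inf (ha : 0 ≤ a) (hb : 0 ≤ b) : Sup (a ⊓ b) = Sup a ∩ Sup b :=
  Set.Subset.antisymm (Set.subset_inter (sup_mono (le_inf ha hb) inf_le_left)
    (sup_mono (le_inf ha hb) inf_le_right)) fun V h => by
      change _ ≠ _
      rw [val_inf]
      exact (lt_min (lt_of_le_of_ne (ha V) h.1.symm) (lt_of_le_of_ne (hb V) h.2.symm)).ne'

theorem res_one_iff (p : LP K E) {W : RZ ℂ E} (ha : a.val p.V = 1) :
    (p.res a).val W = 1 ↔ a.val (p.cm W) = 1 := by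
  have h1 := Pl.val_res_le_iff (p := p.toPl) (W := W) (b := 0) ha rfl
  have h2 := Pl.val_res_le_iff (p := p.toPl) (W := W) (a := 0) rfl ha
  rw [Pl.res_zero] at h1 h2
  rw [le_antisymm_iff, le_antisymm_iff]
  exact and_congr h1 h2

/-- the class of a divisor only depends on its values near the place -/
theorem cf_congr (hB : B.Ax) (p : LP K E) (h : ∀ U : RZ ℂ K, U.1 ≤ p.V.1 → a.val U = b.val U) :
    cf B a E p = cf B b E p := by
  have h1 := hB.pb_c1_eq_zero (a := a - b) p (g := 1) fun U hU => by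
    rw [val_sub, h U hU, div_self (val_ne _ _), map_one]
  rwa [map_sub, map_sub, sub_eq_zero] at h1

theorem cf_add (a b : BD ℂ K) : cf B (a + b) = cf B a + cf B b := by
  funext E _ _ p
  simp [cf]

theorem cf_sub (a b : BD ℂ K) : cf B (a - b) = cf B a - cf B b := by
  funext E _ _ p
  simp [cf]

theorem cf_pr (hB : B.Ax) (x : K) : cf B (pr ℂ x) = 0 := by
  funext E _ _ p
  simp [cf, hB.c1_pr]

theorem i1_add (φ ψ : PF B K) (V : RZ ℂ K) : i1 (φ + ψ) V = i1 φ V + i1 ψ V := map_add _ _ _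

theorem i1_sub (φ ψ : PF B K) (V : RZ ℂ K) : i1 (φ - ψ) V = i1 φ V - i1 ψ V := map_sub _ _ _

theorem i1_smul (c : ℂ) (φ : PF B K) (V : RZ ℂ K) : i1 (c • φ) V = c * i1 φ V := map_smul _ _ _

theorem i1_zero (V : RZ ℂ K) : i1 (0 : PF B K) V = 0 := map_zero _

/-- finite support -/
def Fs (a : BD ℂ K) (f : RZ ℂ K → ℂ) : Prop := {V | Dvs V ∧ (od V a : ℂ) * f V ≠ 0}.Finite

theorem sm_sum {S : Finset (RZ ℂ K)} (h1 : ∀ V ∈ S, Dvs V)
    (h2 : ∀ V, Dvs V → (od V a : ℂ) * f V ≠ 0 → V ∈ S) : sm a f = ∑ V ∈ S, od V a * f V :=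
  finsum_dvs h1 h2

theorem sm_ext (h : ∀ V, Dvs V → (od V a : ℂ) * f V = od V b * g V) : sm a f = sm b g :=
  finsum_congr fun V => finsum_congr fun hV => h V hV

theorem sm_congr (h : ∀ V, Dvs V → od V a ≠ 0 → f V = g V) : sm a f = sm a g :=
  sm_ext fun V hV => by
    by_cases h0 : od V a = 0
    · simp [h0]
    · rw [h V hV h0]

theorem sm_eq_zero (h : ∀ V, Dvs V → od V a ≠ 0 → f V = 0) : sm a f = 0 := by
  rw [sm_congr (g := fun _ => 0) h, sm]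
  simp

theorem sm_zero (f : RZ ℂ K → ℂ) : sm 0 f = 0 := sm_eq_zero fun _ _ h => (h (map_zero _)).elim

theorem Fs.of_imp (h : Fs a f) (h1 : ∀ V, Dvs V → (od V b : ℂ) * g V ≠ 0 → (od V a : ℂ) * f V ≠ 0) :
    Fs b g := h.subset fun V hV => ⟨hV.1, h1 V hV.1 hV.2⟩

theorem Fs.congr (h : Fs a f) (h1 : ∀ V, Dvs V → od V a ≠ 0 → f V = g V) : Fs a g :=
  h.of_imp fun V hV h2 => by
    rwa [h1 V hV fun h3 => h2 (by rw [h3, Int.cast_zero, zero_mul])]

theorem sm_add' {c : BD ℂ K} {k : RZ ℂ K → ℂ} (h : Fs a f) (h' : Fs b g)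
    (he : ∀ V, Dvs V → (od V c : ℂ) * k V = od V a * f V + od V b * g V) :
    Fs c k ∧ sm c k = sm a f + sm b g := by
  classical
  have h1 : ∀ V ∈ h.toFinset ∪ h'.toFinset, Dvs V := fun V hV =>
    (Finset.mem_union.1 hV).elim (fun h2 => (h.mem_toFinset.1 h2).1) fun h2 =>
      (h'.mem_toFinset.1 h2).1
  have h2 : ∀ V, Dvs V → (od V c : ℂ) * k V ≠ 0 → V ∈ h.toFinset ∪ h'.toFinset := fun V hV h2 => by
    by_contra h3
    rw [Finset.mem_union, not_or] at h3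
    exact h2 (by rw [he V hV, not_not.1 fun h4 => h3.1 (h.mem_toFinset.2 ⟨hV, h4⟩),
      not_not.1 fun h4 => h3.2 (h'.mem_toFinset.2 ⟨hV, h4⟩), add_zero])
  refine ⟨(Finset.finite_toSet _).subset fun V hV => h2 V hV.1 hV.2, ?_⟩
  rw [sm_sum h1 h2, sm_sum h1 fun V hV h3 => Finset.mem_union_left _ (h.mem_toFinset.2 ⟨hV, h3⟩),
    sm_sum h1 fun V hV h3 => Finset.mem_union_right _ (h'.mem_toFinset.2 ⟨hV, h3⟩),
    ← Finset.sum_add_distrib]
  exact Finset.sum_congr rfl fun V hV => he V (h1 V hV)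

theorem Fs.add (h : Fs a f) (h' : Fs a g) : Fs a fun V => f V + g V :=
  (sm_add' h h' fun _ _ => mul_add _ _ _).1

theorem sm_add (h : Fs a f) (h' : Fs a g) : (sm a fun V => f V + g V) = sm a f + sm a g :=
  (sm_add' h h' fun _ _ => mul_add _ _ _).2

theorem Fs.add_left (h : Fs a f) (h' : Fs b f) : Fs (a + b) f :=
  (sm_add' h h' fun _ _ => by rw [map_add, Int.cast_add, add_mul]).1

theorem sm_add_left (h : Fs a f) (h' : Fs b f) : sm (a + b) f = sm a f + sm b f :=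
  (sm_add' h h' fun _ _ => by rw [map_add, Int.cast_add, add_mul]).2

theorem Fs.mul (h : Fs a f) (c : ℂ) : Fs a fun V => c * f V :=
  h.of_imp fun V _ h1 h2 => h1 (by rw [mul_left_comm, h2, mul_zero])

theorem sm_mul (a : BD ℂ K) (f : RZ ℂ K → ℂ) (c : ℂ) : (sm a fun V => c * f V) = c * sm a f := by
  classical
  rw [sm, sm, mul_finsum]
  exact finsum_congr fun V => by
    by_cases hV : Dvs V
    · simp only [finsum_eq_if, if_pos hV, mul_left_comm]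
    · simp only [finsum_eq_if, if_neg hV, mul_zero]

theorem Fs.zsmul (h : Fs a f) (n : ℤ) : Fs (n • a) f :=
  h.of_imp fun V _ h1 h2 => h1 (by rw [map_zsmul, smul_eq_mul, Int.cast_mul, mul_assoc, h2, mul_zero])

theorem sm_zsmul (a : BD ℂ K) (f : RZ ℂ K → ℂ) (n : ℤ) : sm (n • a) f = n * sm a f := by
  rw [← sm_mul]
  exact sm_ext fun V _ => by rw [map_zsmul, smul_eq_mul, Int.cast_mul]; ring

theorem Fs.neg (h : Fs a f) : Fs (-a) f := by simpa using h.zsmul (-1)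

theorem sm_neg (a : BD ℂ K) (f : RZ ℂ K → ℂ) : sm (-a) f = -sm a f := by
  simpa using sm_zsmul a f (-1)

theorem sm_sub_left (h : Fs a f) (h' : Fs b f) : sm (a - b) f = sm a f - sm b f := by
  rw [sub_eq_add_neg, sm_add_left h h'.neg, sm_neg, sub_eq_add_neg]

theorem sm_sum_left {ι : Type*} (s : Finset ι) (a : ι → BD ℂ K) (h : ∀ i ∈ s, Fs (a i) f) :
    Fs (∑ i ∈ s, a i) f ∧ sm (∑ i ∈ s, a i) f = ∑ i ∈ s, sm (a i) f := by
  classical
  induction s using Finset.induction_on with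
  | empty => exact ⟨Set.finite_empty.subset fun V hV => hV.2 (by simp), by simp [sm_zero]⟩
  | insert i s hi ih =>
    obtain ⟨h1, h2⟩ := ih fun j hj => h j (Finset.mem_insert_of_mem hj)
    have h3 := h i (Finset.mem_insert_self _ _)
    rw [Finset.sum_insert hi, Finset.sum_insert hi]
    exact ⟨h3.add_left h1, by rw [sm_add_left h3 h1, h2]⟩

variable [Algebra.EssFiniteType ℂ K]

theorem mem_sup (hV : Dvs V) : V ∈ Sup a ↔ od V a ≠ 0 := (Geo.od_eq_zero hV).not.symm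

theorem Liv.fin (hB : B.Ax) (h : Liv B Z φ) (a : BD ℂ K) :
    {V | Dvs V ∧ V ∈ Z ∧ od V a ≠ 0 ∧ i1 φ V ≠ 0}.Finite := by
  obtain ⟨T, hT⟩ := h.lc
  refine (fin_alg a T).subset fun V ⟨hV, h1, h2, h3⟩ => ⟨hV, h2, by_contra fun h4 => h3 ?_⟩
  have := Geo.essFT_Rf hV
  exact hT.van hB (p := LP.at V) h1 (sf V T).val (fun t ht => ⟨⟨_, r_mem_sf V ht⟩, rfl⟩) h4

theorem fin_i1 (hB : B.Ax) (h : Liv B Z φ) (hZ : ∀ V, Dvs V → od V a ≠ 0 → V ∈ Z) :
    Fs a (i1 φ) :=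
  (h.fin hB a).subset fun V ⟨hV, h1⟩ => by
    have h2 : od V a ≠ 0 := fun e => h1 (by rw [e, Int.cast_zero, zero_mul])
    exact ⟨hV, hZ V hV h2, h2, right_ne_zero_of_mul h1⟩

theorem fin_i2 (hB : B.Ax) (h : Liv B Z φ) (hV : Dvs V) {b : BD ℂ (Rf V)}
    (hZ : ∀ W, Dvs W → od W b ≠ 0 → (plV V).cm W ∈ Z) : Fs b (i2 φ V) := by
  have := Geo.essFT_Rf hV
  exact fin_i1 hB (h.on (LP.at V)) hZ

theorem fin_i2_of_mem (hB : B.Ax) (h : Liv B Z φ) (hZ : Cl Z) (hV : Dvs V) (h1 : V ∈ Z)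
    (b : BD ℂ (Rf V)) : Fs b (i2 φ V) :=
  fin_i2 hB h hV fun W _ _ => hZ _ _ (Pl.cm_le (p := plV V) W) h1

theorem fin_i2_res (hB : B.Ax) (h : Liv B (Sup D) φ) (hV : Dvs V) (h1 : D.val V = 1) :
    Fs ((plV V).res D) (i2 φ V) := by
  have := Geo.essFT_Rf hV
  exact fin_i2 hB h hV fun W hW h2 h3 =>
    h2 ((Geo.od_eq_zero hW).2 ((res_one_iff (LP.at V) h1).2 h3))

/-- the cycle formula on `V` -/
theorem i1_cf_gen (hB : B.Ax) (h : Liv B Z φ) (hV : Dvs V) (h1 : V ∈ Z) {g : K}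
    (hg : V.v g = a.val V) : i1 (cf B a * φ) V = sm ((plV V).res (a - pr ℂ g)) (i2 φ V) := by
  have := Geo.essFT_Rf hV
  change B.itg _ (B.pb (LP.at V) (B.c1 a) * _) = _
  rw [hB.pb_c1_gen (LP.at V) hg, hB.cyc]
  refine finsum_congr fun W => finsum_congr fun hW => ?_
  have := Geo.essFT_Rf hW
  rw [i2, h.nat _ _ (LP.at V) (LP.at W) h1]
  rfl

theorem i1_cf (hB : B.Ax) (h : Liv B Z φ) (hV : Dvs V) (h1 : V ∈ Z) (ha : a.val V = 1) :
    i1 (cf B a * φ) V = sm ((plV V).res a) (i2 φ V) := by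
  simpa using i1_cf_gen hB h hV h1 (a := a) (g := 1) (by rw [ha, map_one])

/-- on the larger support the cut is the product with the class -/
theorem cut_eq (hB : B.Ax) (h : Liv B Z φ) (hV : Dvs V) (h1 : V ∈ Z) (D : BD ℂ K) :
    cut D φ V = i1 (cf B D * φ) V := by
  unfold cut
  split_ifs with h2
  exacts [(i1_cf hB h hV h1 h2).symm, rfl]

end Crest.Agent.X262.Sym65
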