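import Crest.Agent.X262.Sym65.Sml

/-!
# Row 262, road B, SYM (helper65), part 2: centres

* `Bg H d U`   : the centre of `U` on the `H`-model has dimension at least `d`;
* `Bg.gz`      : a proper generisation of a centre of codimension two is a prime;
* `exists_idl` : the closure of a centre is cut out by finitely many sections;
* `exists_trunc` : the part of an exceptional divisor which lies over a centre of codimension two.
-/

set_option autoImplicit false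
set_option linter.unusedSectionVars false

noncomputable section

namespace Crest.Agent.X262.Sym65

open Crest.Agent.X277 Crest.Agent.X277.Lef Crest.Agent.X277.AN.G1 Crest.Agent.X277.BD
open Crest.Agent.X277.BD.Br (At oP)
open Crest.Agent.X277.Pst
open Crest.Agent.R276.DivVal_858 (ResInd)
open Crest.Agent.X262.Mod (Gz Car IsMod gz_of_le gz_of_loc)

variable {F : Type} [Field F] [Algebra ℂ F] {P : PModel ℂ F} {H G a : BD ℂ F} {U V U₀ : RZ ℂ F}
  {d : ℕ}

/-- the centre of `U` has dimension at least `d` -/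
def Bg (H : BD ℂ F) (d : ℕ) (U : RZ ℂ F) : Prop :=
  ∃ x : Fin d → F, (∀ i, x i ∈ loc H U) ∧ ResInd ℂ U.1 x

theorem ne_top_of_val (h : a.val V ≠ 1) : V.1 ≠ ⊤ := fun h0 =>
  h ((show V = RZ.top ℂ F from Subtype.ext h0) ▸ val_top a)

theorem gz_val (ha : Car H a) (h0 : 0 ≤ a) (h : Gz H U V) (h1 : a.val U = 1) : a.val V = 1 := by
  have h2 := ha.neg.rsa.val_eq_one (neg_nonpos.2 h0) h (by rw [val_neg, h1, inv_one])
  rwa [val_neg, inv_eq_one] at h2

/-- the maximal ideal of `U` in a subalgebra -/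
def mi (A : Subalgebra ℂ F) (U : RZ ℂ F) (h : ∀ y ∈ A, y ∈ U.1) : Ideal A where
  carrier := {y | U.v y < 1}
  add_mem' := fun hx hy => (U.v.map_add _ _).trans_lt (max_lt hx hy)
  zero_mem' := by simp
  smul_mem' := fun c y hy => by
    change U.v ((c : F) * y) < 1
    rw [map_mul]
    exact (mul_le_of_le_one_left' (RZ.le_one_iff.2 (h c c.2))).trans_lt hy

theorem exists_idl_chart (U₀ : RZ ℂ F) (i : Fin (P.N + 1)) : ∃ S : Finset (ℕ × F),
    (∀ x ∈ S, x.2 ∈ (x.1 • oP P).Sec ∧ x.2 ≠ 0 ∧ U₀.v x.2 ≠ (x.1 • oP P).val U₀) ∧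
    ∀ U : RZ ℂ F, U.v (P.y i) = (oP P).val U → (∀ x ∈ S, U.v x.2 ≠ (x.1 • oP P).val U) →
      Gz (oP P) U U₀ := by
  classical
  by_cases hi : U₀.v (P.y i) = (oP P).val U₀
  swap
  · refine ⟨{(1, P.y i)}, fun x hx => ?_, fun U h1 h2 => ?_⟩
    · rw [Finset.mem_singleton.1 hx]
      simpa using ⟨Br.y_mem_Sec i, P.y_ne i, hi⟩
    · simpa [h1] using h2 (1, P.y i)
  have hv : ∀ {W : RZ ℂ F} (_ : W.v (P.y i) = (oP P).val W) (m : ℕ) (g : F),
      W.v (g * P.y i ^ m) = (m • oP P).val W ↔ W.v g = 1 := fun hW m g => by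
    rw [map_mul, map_pow, hW, val_nsmul, mul_eq_right₀ (pow_ne_zero _ (val_ne _ _))]
  obtain ⟨t, ht⟩ := (IsNoetherian.noetherian (mi (P.A i) U₀ (FG.Prm5.chart_le hi)) :)
  have h1 : ∀ g : P.A i, ∃ m : ℕ, (g : F) * P.y i ^ m ∈ (m • oP P).Sec := fun g => by
    obtain ⟨N, hN⟩ := Geo.exists_tw (a := 0) (x := (g : F)) Br.free_oP (Br.y_mem_Sec i) (P.y_ne i)
      fun W hW => RZ.le_one_iff.2 (FG.Prm5.chart_le hW g g.2)
    exact ⟨N, by simpa using hN N le_rfl⟩
  choose m hm using h1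
  refine ⟨(t.filter (· ≠ 0)).image fun g => (m g, (g : F) * P.y i ^ m g), fun x hx => ?_,
    fun U h1 h2 n s hs h3 => by_contra fun h4 => ?_⟩
  · obtain ⟨g, hg, rfl⟩ := Finset.mem_image.1 hx
    obtain ⟨h2, h3⟩ := Finset.mem_filter.1 hg
    have h4 : g ∈ mi (P.A i) U₀ (FG.Prm5.chart_le hi) := ht ▸ Submodule.subset_span h2
    exact ⟨hm g, mul_ne_zero (by simpa using h3) (pow_ne_zero _ (P.y_ne i)),
      (hv hi _ _).not.2 (ne_of_lt h4)⟩
  · have h5 : Submodule.span (P.A i) (t : Set (P.A i)) ≤ mi (P.A i) U (FG.Prm5.chart_le h1) := by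
      refine Submodule.span_le.2 fun g hg => ?_
      by_cases h0 : g = 0
      · exact h0 ▸ zero_mem _
      · exact lt_of_le_of_ne (RZ.le_one_iff.2 (FG.Prm5.chart_le h1 g g.2)) ((hv h1 _ _).not.1
          (h2 _ (Finset.mem_image_of_mem _ (Finset.mem_filter.2 ⟨hg, h0⟩))))
    have h6 : s / P.y i ^ n * P.y i ^ n = s := div_mul_cancel₀ _ (pow_ne_zero _ (P.y_ne i))
    have h7 : (⟨_, FG.Prm5.div_mem_A hs⟩ : P.A i) ∈ mi (P.A i) U₀ (FG.Prm5.chart_le hi) :=
      lt_of_le_of_ne (RZ.le_one_iff.2 (FG.Prm5.chart_le hi _ (FG.Prm5.div_mem_A hs)))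
        ((hv hi n _).not.1 (h6.symm ▸ h4))
    exact ne_of_lt (h5 (ht ▸ h7)) ((hv h1 n _).1 (h6.symm ▸ h3))

/-- the closure of a centre is cut out by finitely many sections -/
theorem exists_idl (P : PModel ℂ F) (U₀ : RZ ℂ F) : ∃ S : Finset (ℕ × F),
    (∀ x ∈ S, x.2 ∈ (x.1 • oP P).Sec ∧ x.2 ≠ 0 ∧ U₀.v x.2 ≠ (x.1 • oP P).val U₀) ∧
    ∀ U : RZ ℂ F, (∀ x ∈ S, U.v x.2 ≠ (x.1 • oP P).val U) → Gz (oP P) U U₀ := by
  classical
  choose S h1 h2 using exists_idl_chart (P := P) U₀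
  refine ⟨Finset.univ.biUnion S, fun x hx => ?_, fun U hU => ?_⟩
  · obtain ⟨i, -, hi⟩ := Finset.mem_biUnion.1 hx
    exact h1 i x hi
  · obtain ⟨i, hi, -⟩ := Br.exists_chart (P := P) U
    exact h2 i U hi fun x hx => hU x (Finset.mem_biUnion.2 ⟨i, Finset.mem_univ _, hx⟩)

theorem exists_inf {ι : Type} (hG : 0 ≤ G) (S : Finset ι) (e : ι → BD ℂ F) (he : ∀ x ∈ S, 0 ≤ e x) :
    ∃ C : BD ℂ F, 0 ≤ C ∧ C ≤ G ∧
      (∀ W, (∀ x ∈ S, G.val W ≤ (e x).val W) → C.val W = G.val W) ∧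
      ∀ W, C.val W ≠ 1 → ∀ x ∈ S, (e x).val W ≠ 1 := by
  classical
  induction S using Finset.induction_on with
  | empty => exact ⟨G, hG, le_rfl, fun _ _ => rfl, by simp⟩
  | insert x S _ ih =>
    obtain ⟨C, h1, h2, h3, h4⟩ := ih fun y hy => he y (Finset.mem_insert_of_mem hy)
    have h5 := he x (Finset.mem_insert_self _ _)
    refine ⟨C ⊓ e x, le_inf h1 h5, inf_le_left.trans h2, fun W hW => ?_, fun W hW y hy => ?_⟩
    · rw [val_inf, h3 W fun y hy => hW y (Finset.mem_insert_of_mem hy),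
        min_eq_left (hW x (Finset.mem_insert_self _ _))]
    · rw [val_inf] at hW
      rcases Finset.mem_insert.1 hy with rfl | hy
      · exact fun h => hW (by rw [h]; exact min_eq_right (h1 W))
      · exact h4 W (fun h => hW (by rw [h]; exact min_eq_left (h5 W))) y hy

variable [Algebra.EssFiniteType ℂ F]

/-- a proper generisation of a centre of codimension two is a prime -/
theorem Bg.gz (hH : Free H) (hd : dim ℂ F = d + 2) (hU : Bg H d U) (h : Gz H U V) (h0 : V.1 ≠ ⊤)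
    (hV : ¬ Prm H V) : Gz H V U := fun m s hs h1 => by
  by_contra h2
  obtain ⟨x, h3, h4⟩ := hU
  obtain ⟨t, h5, h6⟩ := (hH.nsmul m).exists_gen U
  have hw : s / t ∈ loc H U := div_mem_loc hs h5 h6
  have h7 := resInd_cons (V := U) (V' := V) (A := loc H U)
    (fun a ha => mem_of_loc (h.loc_le ha)) (fun a ha => h.unit ha) h4 h3 hw
    (by
      rw [map_div₀, h6, div_lt_one₀ (val_pos _ _)]
      exact lt_of_le_of_ne (hs U) h2)
    (by rw [map_div₀, h1, h m t h5 h6, div_self (val_ne _ _)])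
  have h8 : Gj.dm ℂ F - 1 = d + 1 := by rw [Geo.dm_eq, hd]; rfl
  exact hV ⟨h0, _, fun i => h.loc_le (Fin.cases (motive := fun j => (Fin.cons (s / t) x :
    Fin (d + 1) → F) j ∈ loc H U) hw h3 (Fin.cast h8 i)), h7.comp _ (Fin.cast_injective h8)⟩

/-- the part of an exceptional divisor over a centre of codimension two -/
theorem exists_trunc (hd : dim ℂ F = d + 2) (hG : 0 ≤ G) (hx : ∀ V, Prm (oP P) V → G.val V = 1)
    (hU : Bg (oP P) d U₀) : ∃ C : BD ℂ F, 0 ≤ C ∧ C ≤ G ∧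
      (∀ W, Gz (oP P) U₀ W → C.val W = G.val W) ∧ ∀ W, C.val W ≠ 1 → Gz (oP P) W U₀ := by
  obtain ⟨S, h1, h2⟩ := exists_idl P U₀
  have h3 : ∀ x : ℕ × F, ∃ N : ℕ, x ∈ S → ∀ W, Gz (oP P) U₀ W →
      G.val W ≤ (N • (x.1 • oP P - pr ℂ x.2)).val W := fun x => by
    by_cases hS : x ∈ S
    swap
    · exact ⟨0, fun h => (hS h).elim⟩
    obtain ⟨h4, h5, h6⟩ := h1 x hS
    obtain ⟨t, h7, h8⟩ := ((Br.free_oP (P := P)).nsmul x.1).exists_gen U₀
    have hc : x.2 / t ∈ loc (oP P) U₀ := div_mem_loc h4 h7 h8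
    obtain ⟨N, hN⟩ := Br.exists_pow_le (a := -G) (S := loc (oP P) U₀) (u := 1) hc
      fun W hW hi => by
        rw [map_one, val_neg, one_le_inv₀ (val_pos _ _)]
        refine le_of_eq (by_contra fun h9 => h6 ?_)
        have h10 := gz_of_loc Br.free_oP hW
        have h11 := (hU.gz Br.free_oP hd h10 (ne_top_of_val h9) fun h => h9 (hx W h)).unit
          (h10.loc_le hc) ((RZ.le_one_iff.2 (hW _ hc)).antisymm (by
            have h12 := RZ.le_one_iff.2 hi
            rwa [map_inv₀, inv_le_one₀ (RZ.pos (div_ne_zero h5 (ne_of_val h8)))] at h12))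
        rwa [map_div₀, h8, div_eq_one_iff_eq (val_ne _ _)] at h11
    refine ⟨N, fun _ W hW => ?_⟩
    have h9 := hN N le_rfl W fun y hy => mem_of_loc (hW.loc_le hy)
    rw [mul_one, map_pow, map_div₀, hW _ t h7 h8, val_neg,
      le_inv_comm₀ (pow_pos (div_pos (RZ.pos h5) (val_pos _ _)) _) (val_pos _ _), ← inv_pow,
      inv_div] at h9
    rwa [val_nsmul, val_sub, val_pr h5]
  choose N hN using h3
  obtain ⟨C, h4, h5, h6, h7⟩ := exists_inf hG S (fun x => N x • (x.1 • oP P - pr ℂ x.2))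
    fun x hx => nsmul_nonneg (sub_nonneg.2 ((pr_le_iff (h1 x hx).2.1).2 (h1 x hx).1)) _
  refine ⟨C, h4, h5, fun W hW => h6 W fun x hx => hN x hx W hW, fun W hW => h2 W fun x hx h => ?_⟩
  refine h7 W hW x hx ?_
  rw [val_nsmul, val_sub, val_pr (h1 x hx).2.1, h, div_self (val_ne _ _), one_pow]

end Crest.Agent.X262.Sym65
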