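import Crest.Agent.X262.Sym65.Res
import Crest.Agent.X262.Sym65.Defs

/-!
# Row 262, road B, SYM (helper65), part 4: reciprocity for two prime divisors

The local intersection number of two divisors at a centre of codimension two is minus the
self-intersection of the part of `a₁ ⊓ a₂` which lies over the centre.
-/

set_option autoImplicit false
set_option linter.unusedSectionVars false

noncomputable section

namespace Crest.Agent.X262.Sym65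

open Crest.Agent.X277 Crest.Agent.X277.Lef Crest.Agent.X277.AN.G1 Crest.Agent.X277.BD
open Crest.Agent.X277.BD.Cyc (Lnr Rf plV lnr_plV surj_plV)
open Crest.Agent.X277.BD.Br (At oP)
open Crest.Agent.X277.Pst
open Crest.Agent.X262.Mod (Gz Car IsMod gz_of_le gz_of_loc)
open Crest.Agent.X262.Geo (od dg)
open Crest.Agent.X262.Hb List

variable {F : Type} [Field F] [Algebra ℂ F] {P : PModel ℂ F} {a b a₁ a₂ C : BD ℂ F}
  {U V U₀ V₁ V₂ : RZ ℂ F} {d : ℕ}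

theorem val_lt_of_le (h : U.1 ≤ V.1) (h1 : a.val V < b.val V) : a.val U < b.val U :=
  lt_of_not_ge fun h2 => h1.not_ge (by
    rw [← val_of_le h (v_gen a U), ← val_of_le h (v_gen b U)]
    exact RZ.le_of_le h (by rwa [v_gen, v_gen]))

theorem val_one_of_le (h : U.1 ≤ V.1) (h1 : a.val U = 1) : a.val V = 1 := by
  rw [← val_of_le (g := 1) h (by rw [h1, map_one]), map_one]

theorem fl_le (V : RZ ℂ F) (W : RZ ℂ (Rf V)) : (fl V W).V.1 ≤ V.1 := Pl.cm_le (p := plV V) W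

theorem val_res_eq_iff {W : RZ ℂ (Rf V)} (ha : a.val V = 1) (hb : b.val V = 1) :
    ((plV V).res a).val W = ((plV V).res b).val W ↔ a.val (fl V W).V = b.val (fl V W).V := by
  rw [le_antisymm_iff, le_antisymm_iff, Pl.val_res_le_iff (p := plV V) ha hb,
    Pl.val_res_le_iff (p := plV V) hb ha, fl_V]

theorem val_res_one_iff {W : RZ ℂ (Rf V)} (ha : a.val V = 1) :
    ((plV V).res a).val W = 1 ↔ a.val (fl V W).V = 1 := by
  simpa using val_res_eq_iff (W := W) (b := 0) ha rfl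

theorem sm_eq_sum (a : BD ℂ F) (f : RZ ℂ F → ℂ) (S : Finset (RZ ℂ F)) (hS : ∀ V ∈ S, Dvs V)
    (h : ∀ V, Dvs V → V ∉ S → od V a ≠ 0 → f V = 0) : sm a f = ∑ V ∈ S, od V a * f V := by
  refine finsum_mem_eq_sum_of_inter_support_eq (s := {V | Dvs V}) _ (Set.ext fun V => ?_)
  refine ⟨fun h1 => ⟨by_contra fun h2 => h1.2 ?_, h1.2⟩, fun h1 => ⟨hS V h1.1, h1.2⟩⟩
  by_cases h3 : od V a = 0
  · simp [h3]
  · simp [h V h1.1 h2 h3]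

variable [Algebra.EssFiniteType ℂ F]

theorem bnum_eq_sum (a : BD ℂ F) (l : List (BD ℂ F)) (S : Finset (RZ ℂ F)) (hS : ∀ V ∈ S, Dvs V)
    (h : ∀ V, Dvs V → V ∉ S → od V a ≠ 0 → dg V l = 0) :
    bnum (a :: l) = ∑ V ∈ S, od V a * dg V l := by
  obtain ⟨T, h1, h2, h3, h4⟩ := Geo.exists_cyc a l S hS
  rw [h4]
  exact (Finset.sum_subset h1 fun V hV hS => by
    rw [h V (h2 V hV) hS (h3 V hV hS), mul_zero]).symm

theorem dg_exc (hd : dim ℂ F = d + 2) (ha : Car (oP P) a) (hV : Dvs V) (h : ¬ Prm (oP P) V) :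
    dg V (a :: replicate d (oP P)) = 0 := by
  obtain ⟨c, h1, h2⟩ := ha
  have h3 : dg V (oP P :: replicate d (oP P)) = 0 := Geo.dg_eq_zero Br.free_oP hV h hd
  have h4 : ∀ x : BD ℂ F, Free x → 0 ≤ dg V (x :: replicate d (oP P)) := fun x hx =>
    Geo.dg_nonneg (forall_mem_cons.2 ⟨hx.nef, fun y hy => eq_of_mem_replicate hy ▸ Br.free_oP.nef⟩)
  have h5 := h4 _ h1
  have h6 := h4 _ h2
  rw [Geo.dg_add, Geo.dg_nsmul, h3] at h5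
  rw [Geo.dg_sub, Geo.dg_nsmul, h3] at h6
  omega

theorem dg_flag (hV : Dvs V) (ha : a.val V = 1) (S : Finset (RZ ℂ (Rf V))) (hS : ∀ W ∈ S, Dvs W)
    (h : ∀ W, Dvs W → W ∉ S → od W ((plV V).res a) ≠ 0 → fd P d V W = 0) :
    dg V (a :: replicate d (oP P)) = ∑ W ∈ S, od W ((plV V).res a) * fd P d V W := by
  have := Geo.essFT_Rf hV
  rw [Geo.dg_eq, map_cons, (Pl.lin_rs_res (p := plV V) ha).bnum_eq, map_replicate]
  exact bnum_eq_sum _ _ S hS h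

theorem dg_of_fd (hV : Dvs V) (h : ∀ W, Dvs W → fd P d V W = 0) :
    dg V (a :: replicate d (oP P)) = 0 := by
  have := Geo.essFT_Rf hV
  rw [Geo.dg_eq, map_cons, map_replicate]
  exact Geo.bnum_eq_zero fun W hW _ => h W hW

theorem dg_congr (hV : Dvs V) (h1 : a.val V = b.val V)
    (h2 : ∀ W, Dvs W → fd P d V W ≠ 0 → a.val (fl V W).V = b.val (fl V W).V) :
    dg V (a :: replicate d (oP P)) = dg V (b :: replicate d (oP P)) := by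
  have := Geo.essFT_Rf hV
  have h3 : (a - b).val V = 1 := by rw [val_sub, h1, div_self (val_ne _ _)]
  rw [← sub_eq_zero, ← Geo.dg_sub, dg_flag hV h3 ∅ (by simp) fun W hW _ h4 => by_contra fun h5 =>
    h4 ((Geo.od_eq_zero hW).2 ((val_res_one_iff h3).2
      (by rw [val_sub, h2 W hW h5, div_self (val_ne _ _)]))), Finset.sum_empty]

theorem fd_nonneg (V : RZ ℂ F) (W : RZ ℂ (Rf V)) : 0 ≤ fd P d V W :=
  Geo.dg_nonneg fun _ hb => eq_of_mem_replicate hb ▸ Br.free_oP.nef.rs _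

theorem fin_fd (P : PModel ℂ F) (d : ℕ) (hV : Dvs V) (h0 : 0 ≤ a) (ha : a.val V = 1) :
    {W : RZ ℂ (Rf V) | Dvs W ∧ od W ((plV V).res a) ≠ 0 ∧ fd P d V W ≠ 0}.Finite := by
  have := Geo.essFT_Rf hV
  have h1 := Pl.res_nonneg (p := plV V) ha h0
  by_contra h
  obtain ⟨S, h2, h3⟩ := Set.Infinite.exists_subset_card_eq h
    ((bnum ((plV V).res a :: replicate d ((plV V).rs (oP P)))).toNat + 1)
  have h4 := Geo.sum_le_bnum h1 (l := replicate d ((plV V).rs (oP P)))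
    (fun _ hb => eq_of_mem_replicate hb ▸ Br.free_oP.nef.rs _) S fun W hW => (h2 hW).1
  have h5 := Finset.card_nsmul_le_sum S (fun W => od W ((plV V).res a) * fd P d V W) 1
    fun W hW => Int.add_one_le_iff.2 (mul_pos ((Geo.od_nonneg h1).lt_of_ne' (h2 hW).2.1)
      ((fd_nonneg V W).lt_of_ne' (h2 hW).2.2))
  have h6 := h5.trans h4
  rw [h3, nsmul_eq_mul, mul_one] at h6
  omega

/-- the data of the local computation -/
structure Tc (P : PModel ℂ F) (d : ℕ) (a₁ a₂ C : BD ℂ F) (U₀ : RZ ℂ F) : Prop where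
  hd : dim ℂ F = d + 2
  c₁ : Car (oP P) a₁
  c₂ : Car (oP P) a₂
  exc : ∀ V, Prm (oP P) V → (a₁ ⊓ a₂).val V = 1
  mem : (a₁ ⊓ a₂).val U₀ ≠ 1
  pos : 0 ≤ C
  le : C ≤ a₁ ⊓ a₂
  eq : ∀ W, Gz (oP P) U₀ W → C.val W = (a₁ ⊓ a₂).val W
  sup : ∀ W, C.val W ≠ 1 → Gz (oP P) W U₀

namespace Tc

theorem symm (h : Tc P d a₁ a₂ C U₀) : Tc P d a₂ a₁ C U₀ :=
  ⟨h.hd, h.c₂, h.c₁, inf_comm a₁ a₂ ▸ h.exc, inf_comm a₁ a₂ ▸ h.mem, h.pos, inf_comm a₁ a₂ ▸ h.le,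
    inf_comm a₁ a₂ ▸ h.eq, h.sup⟩

variable (h : Tc P d a₁ a₂ C U₀)
include h

theorem gz (hU : Bg (oP P) d U) (h1 : C.val U ≠ 1) : Gz (oP P) U₀ U :=
  hU.gz Br.free_oP h.hd (h.sup U h1) (ne_top_of_val h.mem) fun h2 => h.mem (h.exc _ h2)

theorem val_eq (h1 : a₂.val V < a₁.val V) (h2 : U.1 ≤ V.1) (h3 : Gz (oP P) U₀ U) :
    C.val U = a₂.val U := by
  rw [h.eq U h3, val_inf, min_eq_right (val_lt_of_le h2 h1).le]

theorem dg_exc (hV : Dvs V) (hp : ¬ Prm (oP P) V) (h1 : a₂.val V < a₁.val V) :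
    dg V (C :: replicate d (oP P)) = 0 := by
  by_cases h2 : ∀ W, Dvs W → fd P d V W = 0
  · exact dg_of_fd hV h2
  push Not at h2
  obtain ⟨W₀, h2, h3⟩ := h2
  by_cases h4 : Gz (oP P) U₀ V
  · rw [dg_congr hV (h.val_eq h1 le_rfl h4) fun W hW h5 => h.val_eq h1 (fl_le V W)
      (h4.trans ((bg_of_fd hV hW h5).gz Br.free_oP h.hd (gz_of_le (fl_le V W)) hV.ne_top hp))]
    exact Sym65.dg_exc h.hd h.c₂ hV hp
  · have h5 : ∀ W, Dvs W → fd P d V W ≠ 0 → C.val (fl V W).V = 1 := fun W hW h5 =>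
      by_contra fun h6 => h4 ((h.gz (bg_of_fd hV hW h5) h6).trans (gz_of_le (fl_le V W)))
    rw [dg_congr (b := 0) hV (val_one_of_le (fl_le V W₀) (h5 W₀ h2 h3)) h5, Geo.dg_zero]

open Classical in
theorem dg_prm (hV : Dvs V) (h1 : a₂.val V = 1) (h2 : 1 < a₁.val V) (S : Finset (RZ ℂ (Rf V)))
    (hS : ∀ W ∈ S, Dvs W)
    (h3 : ∀ W, Dvs W → W ∉ S → od W ((plV V).res a₂) ≠ 0 → fd P d V W = 0) :
    dg V (C :: replicate d (oP P)) =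
      ∑ W ∈ S with Gz (oP P) U₀ (fl V W).V ∧ Gz (oP P) (fl V W).V U₀,
        od W ((plV V).res a₂) * fd P d V W := by
  have := Geo.essFT_Rf hV
  have h4 : ∀ U, a₂.val U = 1 → C.val U = 1 := fun U hU =>
    le_antisymm (hU ▸ (h.le.trans inf_le_right) U) (h.pos U)
  rw [dg_flag hV (h4 V h1) S hS fun W hW h5 h6 => h3 W hW h5 fun h7 => h6
    ((Geo.od_eq_zero hW).2 ((val_res_one_iff (h4 V h1)).2
      (h4 _ ((val_res_one_iff h1).1 ((Geo.od_eq_zero hW).1 h7))))), Finset.sum_filter]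
  refine Finset.sum_congr rfl fun W hW => ?_
  by_cases h5 : fd P d V W = 0
  · simp [h5]
  split_ifs with h6
  · rw [(Geo.od_eq_iff (hS W hW)).2 ((val_res_eq_iff (h4 V h1) h1).2
      (h.val_eq (h1 ▸ h2) (fl_le V W) h6.1))]
  · rw [(Geo.od_eq_zero (hS W hW)).2 ((val_res_one_iff (h4 V h1)).2 (by_contra fun h7 =>
      h6 ⟨h.gz (bg_of_fd hV (hS W hW) h5) h7, h.sup _ h7⟩)), zero_mul]

theorem dg_eq (hne : V₁ ≠ V₂) (p₁ : Prm (oP P) V₁) (p₂ : Prm (oP P) V₂) (o₁ : od V₁ a₁ = 1)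
    (o₂ : od V₂ a₂ = 1) (z₁ : ∀ V, Prm (oP P) V → V ≠ V₁ → a₁.val V = 1)
    (z₂ : ∀ V, Prm (oP P) V → V ≠ V₂ → a₂.val V = 1) :
    dg V₁ (C :: replicate d (oP P)) = dg V₂ (C :: replicate d (oP P)) := by
  classical
  have h1 : bnum (C :: (a₁ - a₂) :: replicate d (oP P)) = 0 :=
    Geo.bnum_eq_zero fun V hV h1 => Sym65.dg_exc h.hd (h.c₁.sub h.c₂) hV fun h2 =>
      h1 ((Geo.od_eq_zero hV).2 (le_antisymm (h.exc V h2 ▸ h.le V) (h.pos V)))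
  rw [bnum_swap, bnum_eq_sum _ _ {V₁, V₂} (by simpa using ⟨p₁.dvs, p₂.dvs⟩) fun V hV h2 h3 => ?_,
    Finset.sum_pair hne, map_sub, map_sub, o₁, o₂, (Geo.od_eq_zero p₁.dvs).2 (z₂ _ p₁ hne),
    (Geo.od_eq_zero p₂.dvs).2 (z₁ _ p₂ hne.symm)] at h1
  · omega
  · rw [map_sub, sub_ne_zero, Ne, Geo.od_eq_iff hV] at h3
    simp only [Finset.mem_insert, Finset.mem_singleton, not_or] at h2
    have h4 : ¬ Prm (oP P) V := fun h4 => h3 ((z₁ V h4 h2.1).trans (z₂ V h4 h2.2).symm)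
    exact (lt_or_gt_of_ne h3).elim (h.symm.dg_exc hV h4) (h.dg_exc hV h4)

end Tc

/-- the centre as a set -/
def cn (P : PModel ℂ F) (U : RZ ℂ F) : Set (RZ ℂ F) := {W | Gz (oP P) U W}

omit [Algebra.EssFiniteType ℂ F] in
theorem cn_eq : cn P U = cn P U₀ ↔ Gz (oP P) U₀ U ∧ Gz (oP P) U U₀ :=
  ⟨fun h => ⟨(Set.ext_iff.1 h U).1 Gz.rfl, (Set.ext_iff.1 h U₀).2 Gz.rfl⟩,
    fun h => Set.ext fun _ => ⟨h.1.trans, h.2.trans⟩⟩

/-- the numbers `Φ` are proportional to the degrees of the flags over the centre of `U₀` -/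
def Prop1 (P : PModel ℂ F) (d : ℕ) (U₀ : RZ ℂ F) (c : ℂ) (V : RZ ℂ F) (Φ : RZ ℂ (Rf V) → ℂ) : Prop :=
  ∀ W, Dvs W → Gz (oP P) U₀ (fl V W).V → Gz (oP P) (fl V W).V U₀ → Φ W = c * fd P d V W

/-- **reciprocity** -/
theorem recip (hd : dim ℂ F = d + 2) (c₁ : Car (oP P) a₁) (c₂ : Car (oP P) a₂) (e₁ : 0 ≤ a₁)
    (e₂ : 0 ≤ a₂) (hne : V₁ ≠ V₂) (p₁ : Prm (oP P) V₁) (p₂ : Prm (oP P) V₂) (o₁ : od V₁ a₁ = 1)
    (o₂ : od V₂ a₂ = 1) (z₁ : ∀ V, Prm (oP P) V → V ≠ V₁ → a₁.val V = 1)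
    (z₂ : ∀ V, Prm (oP P) V → V ≠ V₂ → a₂.val V = 1) {Φ₁ : RZ ℂ (Rf V₁) → ℂ}
    {Φ₂ : RZ ℂ (Rf V₂) → ℂ}
    (h : ∀ U₀, (a₁ ⊓ a₂).val U₀ ≠ 1 → ∃ c, Prop1 P d U₀ c V₁ Φ₁ ∧ Prop1 P d U₀ c V₂ Φ₂) :
    sm ((plV V₁).res a₂) Φ₁ = sm ((plV V₂).res a₁) Φ₂ := by
  classical
  have := Geo.essFT_Rf p₁.dvs
  have := Geo.essFT_Rf p₂.dvs
  have v₁ := z₂ _ p₁ hne
  have v₂ := z₁ _ p₂ hne.symm
  have l₁ : 1 < a₁.val V₁ := (Geo.od_lt_iff (a := 0) p₁.dvs).1 (by simp [o₁])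
  have l₂ : 1 < a₂.val V₂ := (Geo.od_lt_iff (a := 0) p₂.dvs).1 (by simp [o₂])
  have hx : ∀ V, Prm (oP P) V → (a₁ ⊓ a₂).val V = 1 := fun V hV => by
    rw [val_inf]
    rcases eq_or_ne V V₁ with rfl | h1
    · exact v₁ ▸ min_eq_right (v₁ ▸ e₁ V)
    · rw [z₁ V hV h1]
      exact min_eq_left (e₂ V)
  have m₁ : ∀ W, Dvs W → od W ((plV V₁).res a₂) ≠ 0 → (a₁ ⊓ a₂).val (fl V₁ W).V ≠ 1 :=
    fun W hW h1 => by
      rw [val_inf]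
      exact (lt_min (val_lt_of_le (a := 0) (fl_le V₁ W) l₁) (lt_of_le_of_ne (e₂ _) fun h2 =>
        h1 ((Geo.od_eq_zero hW).2 ((val_res_one_iff v₁).2 h2.symm)))).ne'
  have m₂ : ∀ W, Dvs W → od W ((plV V₂).res a₁) ≠ 0 → (a₁ ⊓ a₂).val (fl V₂ W).V ≠ 1 :=
    fun W hW h1 => by
      rw [val_inf]
      exact (lt_min (lt_of_le_of_ne (e₁ _) fun h2 =>
        h1 ((Geo.od_eq_zero hW).2 ((val_res_one_iff v₂).2 h2.symm)))
        (val_lt_of_le (a := 0) (fl_le V₂ W) l₂)).ne'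
  obtain ⟨S₁, s₁⟩ : ∃ S : Finset (RZ ℂ (Rf V₁)), ∀ W, W ∈ S ↔
      Dvs W ∧ od W ((plV V₁).res a₂) ≠ 0 ∧ fd P d V₁ W ≠ 0 :=
    ⟨_, fun _ => (fin_fd P d p₁.dvs e₂ v₁).mem_toFinset⟩
  obtain ⟨S₂, s₂⟩ : ∃ S : Finset (RZ ℂ (Rf V₂)), ∀ W, W ∈ S ↔
      Dvs W ∧ od W ((plV V₂).res a₁) ≠ 0 ∧ fd P d V₂ W ≠ 0 :=
    ⟨_, fun _ => (fin_fd P d p₂.dvs e₁ v₂).mem_toFinset⟩
  have f₁ : ∀ W, Dvs W → W ∉ S₁ → od W ((plV V₁).res a₂) ≠ 0 → fd P d V₁ W = 0 :=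
    fun W hW h1 h2 => by_contra fun h3 => h1 ((s₁ W).2 ⟨hW, h2, h3⟩)
  have f₂ : ∀ W, Dvs W → W ∉ S₂ → od W ((plV V₂).res a₁) ≠ 0 → fd P d V₂ W = 0 :=
    fun W hW h1 h2 => by_contra fun h3 => h1 ((s₂ W).2 ⟨hW, h2, h3⟩)
  rw [sm_eq_sum _ _ S₁ (fun W hW => ((s₁ W).1 hW).1) fun W hW h1 h2 => by
      obtain ⟨c, h3, -⟩ := h _ (m₁ W hW h2)
      rw [h3 W hW Gz.rfl Gz.rfl, f₁ W hW h1 h2, Int.cast_zero, mul_zero],
    sm_eq_sum _ _ S₂ (fun W hW => ((s₂ W).1 hW).1) fun W hW h1 h2 => by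
      obtain ⟨c, -, h3⟩ := h _ (m₂ W hW h2)
      rw [h3 W hW Gz.rfl Gz.rfl, f₂ W hW h1 h2, Int.cast_zero, mul_zero],
    ← Finset.sum_fiberwise_of_maps_to (g := fun W => cn P (fl V₁ W).V)
      (t := S₁.image (fun W => cn P (fl V₁ W).V) ∪ S₂.image fun W => cn P (fl V₂ W).V)
      fun W hW => Finset.mem_union_left _ (Finset.mem_image_of_mem _ hW),
    ← Finset.sum_fiberwise_of_maps_to (s := S₂) (g := fun W => cn P (fl V₂ W).V)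
      (t := S₁.image (fun W => cn P (fl V₁ W).V) ∪ S₂.image fun W => cn P (fl V₂ W).V)
      fun W hW => Finset.mem_union_right _ (Finset.mem_image_of_mem _ hW)]
  refine Finset.sum_congr rfl fun x hx' => ?_
  obtain ⟨U₀, rfl, h1, h2⟩ : ∃ U₀, cn P U₀ = x ∧ (a₁ ⊓ a₂).val U₀ ≠ 1 ∧ Bg (oP P) d U₀ := by
    rcases Finset.mem_union.1 hx' with h1 | h1 <;> obtain ⟨W, hW, rfl⟩ := Finset.mem_image.1 h1
    · obtain ⟨h2, h3, h4⟩ := (s₁ W).1 hW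
      exact ⟨_, rfl, m₁ W h2 h3, bg_of_fd p₁.dvs h2 h4⟩
    · obtain ⟨h2, h3, h4⟩ := (s₂ W).1 hW
      exact ⟨_, rfl, m₂ W h2 h3, bg_of_fd p₂.dvs h2 h4⟩
  obtain ⟨C, h3, h4, h5, h6⟩ := exists_trunc hd (le_inf e₁ e₂) hx h2
  have hT : Tc P d a₁ a₂ C U₀ := ⟨hd, c₁, c₂, hx, h1, h3, h4, h5, h6⟩
  have h7 := hT.dg_eq hne p₁ p₂ o₁ o₂ z₁ z₂
  rw [hT.dg_prm p₁.dvs v₁ l₁ S₁ (fun W hW => ((s₁ W).1 hW).1) f₁,
    hT.symm.dg_prm p₂.dvs v₂ l₂ S₂ (fun W hW => ((s₂ W).1 hW).1) f₂] at h7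
  obtain ⟨c, h8, h9⟩ := h U₀ h1
  have h10 := congrArg (fun n : ℤ => c * (n : ℂ)) h7
  simp only [Int.cast_sum, Int.cast_mul, Finset.mul_sum] at h10
  simp only [cn_eq]
  refine (Finset.sum_congr (by congr) fun W hW => ?_).trans
    (h10.trans (Finset.sum_congr (by congr) fun W hW => ?_))
  · obtain ⟨h11, h12⟩ := Finset.mem_filter.1 hW
    rw [h8 W ((s₁ W).1 h11).1 h12.1 h12.2, mul_left_comm]
  · obtain ⟨h11, h12⟩ := Finset.mem_filter.1 hW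
    rw [h9 W ((s₂ W).1 h11).1 h12.1 h12.2, mul_left_comm]

end Crest.Agent.X262.Sym65
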