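import Crest.Agent.X262.Sym65.Cen
import Crest.Agent.X262.Hb.Defs

/-!
# Row 262, road B, SYM (helper65), part 3: the residue field of a centre, degrees of flags

* `exists_res` : the residue field of a centre embeds in the target of every place over it;
* `fl V W`     : the place of a flag;  `fd P d V W` : its degree;
* `exists_prop` : over a fixed centre the degree of a flag is the residue degree times a constant;
* `bg_of_fd`   : flags of nonzero degree have a big centre.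
-/

set_option autoImplicit false
set_option linter.unusedSectionVars false

noncomputable section

namespace Crest.Agent.X262.Sym65

open Crest.Agent.X277 Crest.Agent.X277.Lef Crest.Agent.X277.AN.G1 Crest.Agent.X277.BD
open Crest.Agent.X277.BD.Cyc (Lnr Rf plV lnr_plV surj_plV)
open Crest.Agent.X277.BD.Br (At oP)
open Crest.Agent.X277.Pst
open Crest.Agent.R276.DivVal_858 (ResInd)
open Crest.Agent.X262.Mod (Gz Car IsMod gz_of_le gz_of_loc)
open Crest.Agent.X262.Geo (od dg)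
open Crest.Agent.X262.Hb

variable {F E L : Type} [Field F] [Algebra ℂ F] [Field E] [Algebra ℂ E] [Field L] [Algebra ℂ L]
  {P : PModel ℂ F} {H : BD ℂ F} {U V U₀ : RZ ℂ F} {d : ℕ}

theorem V_comp (p : LP F E) (q : LP E L) : (p.comp q).V = p.cm q.V := rfl

theorem r_comp (p : LP F E) (q : LP E L) (x : F) : (p.comp q).r x = q.r (p.r x) := by
  by_cases hx : x ∈ (p.comp q).V.1
  · exact Pl.r_eq _ hx
  · rw [Pl.r, dif_neg hx]
    by_cases h1 : x ∈ p.V.1
    · rw [Pl.r, dif_neg fun h2 => hx ⟨h1, h2⟩]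
    · rw [show p.r x = 0 from dif_neg h1, Pl.r_zero]

/-- evaluation at a place -/
def evA (p : LP F E) (A : Subalgebra ℂ F) (h : ∀ y ∈ A, y ∈ p.V.1) : A →ₐ[ℂ] E where
  toFun x := p.r x
  map_one' := p.r_one
  map_mul' x y := Pl.r_mul (h _ x.2) (h _ y.2)
  map_zero' := p.r_zero
  map_add' x y := Pl.r_add (h _ x.2) (h _ y.2)
  commutes' c := p.lnr c

theorem mi_max (H : BD ℂ F) (U : RZ ℂ F) : (mi (loc H U) U fun _ => mem_of_loc).IsMaximal := by
  refine Ideal.isMaximal_iff.2 ⟨fun h => ?_, fun J x _ h1 h2 => ?_⟩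
  · exact lt_irrefl _ ((map_one U.v).symm.trans_lt h)
  · have h3 : U.v x = 1 := (RZ.le_one_iff.2 (mem_of_loc x.2)).antisymm (not_lt.1 h1)
    have h4 := J.mul_mem_left ⟨_, Neg.inv_mem_loc x.2 h3⟩ h2
    convert h4 using 1
    exact Subtype.ext (inv_mul_cancel₀ (RZ.ne_zero_iff.1 (h3 ▸ one_ne_zero))).symm

theorem chart_le_loc {i : Fin (P.N + 1)} (hi : U.v (P.y i) = (oP P).val U) :
    P.A i ≤ loc (oP P) U := fun y hy =>
  Geo.mem_loc_of_chart Br.free_oP (Br.y_mem_Sec i) hi fun _ hW => FG.Prm5.chart_le hW y hy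

/-- the residue field of a centre -/
theorem exists_res {i : Fin (P.N + 1)} (hi : U₀.v (P.y i) = (oP P).val U₀) :
    ∃ (κ : Type) (_ : Field κ) (_ : Algebra ℂ κ) (ρ : F → κ),
      IntermediateField.adjoin ℂ (Set.range fun j => ρ (P.y j / P.y i)) = ⊤ ∧
      ∀ (E : Type) [Field E] [Algebra ℂ E] (p : LP F E), Gz (oP P) U₀ p.V → Gz (oP P) p.V U₀ →
        ∃ α : κ →ₐ[ℂ] E, ∀ x ∈ loc (oP P) U₀, p.r x = α (ρ x) := by
  classical
  let O := loc (oP P) U₀
  let m : Ideal O := mi O U₀ fun _ => mem_of_loc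
  have hm : m.IsMaximal := mi_max _ _
  let : Field (O ⧸ m) := Ideal.Quotient.field m
  let π : O →ₐ[ℂ] O ⧸ m := Ideal.Quotient.mkₐ ℂ m
  let ρ : F → O ⧸ m := fun x => if h : x ∈ O then π ⟨x, h⟩ else 0
  have hρ : ∀ x : O, ρ x = π x := fun x => dif_pos x.2
  refine ⟨O ⧸ m, inferInstance, inferInstance, ρ, eq_top_iff.2 fun z _ => ?_,
    fun E _ _ p h1 h2 => ?_⟩
  · have h1 : ∀ y (hy : y ∈ P.A i), π ⟨y, chart_le_loc hi hy⟩ ∈
        IntermediateField.adjoin ℂ (Set.range fun j => ρ (P.y j / P.y i)) := by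
      intro y hy
      induction hy using Algebra.adjoin_induction with
      | mem y hy =>
        obtain ⟨j, rfl⟩ := hy
        exact IntermediateField.subset_adjoin _ _ ⟨j, hρ ⟨_, _⟩⟩
      | algebraMap c => exact (π.commutes c).symm ▸ IntermediateField.algebraMap_mem _ c
      | add x y hx hy h1 h2 =>
        exact (map_add π ⟨x, chart_le_loc hi hx⟩ ⟨y, chart_le_loc hi hy⟩).symm ▸ add_mem h1 h2
      | mul x y hx hy h1 h2 =>
        exact (map_mul π ⟨x, chart_le_loc hi hx⟩ ⟨y, chart_le_loc hi hy⟩).symm ▸ mul_mem h1 h2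
    obtain ⟨⟨x, hx⟩, rfl⟩ := Ideal.Quotient.mkₐ_surjective ℂ m z
    obtain ⟨n, g, h2, h3, h4⟩ := id hx
    have h5 := h1 _ (FG.Prm5.div_mem_A (i := i) h2)
    have h6 := h1 _ (FG.Prm5.div_mem_A (i := i) h4)
    have h7 : π ⟨_, chart_le_loc hi (FG.Prm5.div_mem_A (i := i) h2)⟩ ≠ 0 := fun h => by
      have h8 : U₀.v (g / P.y i ^ n) < 1 := Ideal.Quotient.eq_zero_iff_mem.1 h
      rw [map_div₀, map_pow, h3, hi, val_nsmul, div_self (pow_ne_zero _ (val_ne _ _))] at h8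
      exact lt_irrefl _ h8
    have h8 := div_mem h6 h5
    rwa [show (⟨_, chart_le_loc hi (FG.Prm5.div_mem_A (i := i) h4)⟩ : O) =
      ⟨x, hx⟩ * ⟨_, chart_le_loc hi (FG.Prm5.div_mem_A (i := i) h2)⟩ from
        Subtype.ext (mul_div_assoc _ _ _), map_mul, mul_div_cancel_right₀ _ h7] at h8
  · refine ⟨Ideal.Quotient.liftₐ m (evA p O fun y hy => mem_of_loc (h1.loc_le hy)) fun x hx => ?_,
      fun x hx => ?_⟩
    · by_contra h
      exact ne_of_lt hx (h2.unit (h1.loc_le x.2) (Pl.r_ne_zero_iff.1 h))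
    · rw [show ρ x = π ⟨x, hx⟩ from hρ ⟨x, hx⟩]
      rfl

theorem lin_rs_mxf (p : Pl ℂ F ℂ E) {ι : Type} [Fintype ι] {s : ι → F} {i : ι}
    (hi : p.V.v (s i) = (mxf ℂ s).val p.V) :
    Lin (p.rs (mxf ℂ s)) (mxf ℂ fun j => p.r (s j / s i)) := by
  classical
  have h0 : s i ≠ 0 := ne_of_val hi
  have h3 : ∀ j, s j / s i ∈ p.V.1 := fun j => (RZ.le_iff h0).1 (hi ▸ mem_Sec_mxf s j p.V)
  have h4 : mxf ℂ s - pr ℂ (s i) = mxf ℂ fun j => s j / s i := by
    refine eq_mxf (fun j => (mem_Sec_sub_pr h0).2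
      (by rw [div_mul_cancel₀ _ h0]; exact mem_Sec_mxf s j)) fun W => ?_
    obtain ⟨j, hj⟩ := exists_val_mxf (k := ℂ) ⟨i, h0⟩ W
    exact ⟨j, by rw [map_div₀, hj, val_sub, val_pr h0]⟩
  have h6 := Pl.lin_rs (p := p) hi
  rwa [h4, mxf.eq_1 ℂ fun j => s j / s i, Pl.res_mx (p := p) (fun y hy => by
    obtain ⟨j, -, rfl⟩ := Finset.mem_image.1 hy; exact h3 j)
    ⟨1, by simpa using ⟨i, div_self h0⟩, map_one _⟩, Finset.image_image] at h6

theorem lin_rs_congr (p : Pl ℂ F ℂ E) {a b : BD ℂ F} (h : Lin a b) : Lin (p.rs a) (p.rs b) := by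
  obtain ⟨f, -, rfl⟩ := h
  simpa using (Pl.lin_rs_add _ _).trans (Lin.rfl.add (Pl.lin_rs_pr (p := p) f))

theorem bnum_rep [Algebra.EssFiniteType ℂ F] {a b : BD ℂ F} (h : Lin a b) (d : ℕ) :
    bnum (List.replicate d a) = bnum (List.replicate d b) := by
  have h7 : List.Forall₂ Lin (List.replicate d a) (List.replicate d b) := by
    induction d with
    | zero => exact List.Forall₂.nil
    | succ e ih => exact List.Forall₂.cons h ih
  simpa using bnum_congr h7 []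

/-- the place of a flag -/
abbrev fl (V : RZ ℂ F) (W : RZ ℂ (Rf V)) : LP F (Rf W) := (LP.at V).comp (LP.at W)

/-- the degree of a flag -/
def fd (P : PModel ℂ F) (d : ℕ) (V : RZ ℂ F) (W : RZ ℂ (Rf V)) : ℤ :=
  dg W (List.replicate d ((plV V).rs (oP P)))

theorem fl_V (V : RZ ℂ F) (W : RZ ℂ (Rf V)) : (fl V W).V = (plV V).cm W := rfl

theorem fl_r (V : RZ ℂ F) (W : RZ ℂ (Rf V)) (x : F) : (fl V W).r x = (plV W).r ((plV V).r x) :=
  r_comp _ _ x

theorem fd_eq {W : RZ ℂ (Rf V)} [Algebra.EssFiniteType ℂ (Rf W)] {i : Fin (P.N + 1)}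
    (hi : (fl V W).V.v (P.y i) = (oP P).val (fl V W).V) :
    fd P d V W = bnum (List.replicate d (mxf ℂ fun j => (fl V W).r (P.y j / P.y i))) := by
  rw [fl_V] at hi
  have h1 : V.v (P.y i) = (oP P).val V := val_of_le (Pl.cm_le (p := plV V) W) hi
  have h2 : (plV V).r (P.y i / P.y i) = 1 := by rw [div_self (P.y_ne i), Pl.r_one]
  have h0 : ∀ j, (plV V).r (P.y j / P.y i) ∈ W.1 := fun j =>
    (FG.Prm5.chart_le hi _ (div_mem_chart P.y i j)).2
  have h4 : W.v ((plV V).r (P.y i / P.y i)) =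
      (mxf ℂ fun j => (plV V).r (P.y j / P.y i)).val W :=
    (val_mxf (s := fun j => (plV V).r (P.y j / P.y i)) (by rw [h2]; exact one_ne_zero) fun j => by
      rw [h2, map_one]
      exact RZ.le_one_iff.2 (h0 j)).symm
  have h3 := lin_rs_mxf (plV W) (s := fun j => (plV V).r (P.y j / P.y i)) (i := i) h4
  have h5 : Lin ((plV V).rs (oP P)) (mxf ℂ fun j => (plV V).r (P.y j / P.y i)) :=
    lin_rs_mxf (plV V) h1
  rw [fd, Geo.dg_eq, List.map_replicate, bnum_rep ((lin_rs_congr _ h5).trans h3)]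
  simp only [h2, div_one, fl_r]

theorem essFT_of_adjoin {ι : Type} [Finite ι] {u : ι → E}
    (h : IntermediateField.adjoin ℂ (Set.range u) = ⊤) : Algebra.EssFiniteType ℂ E :=
  IntermediateField.fg_top_iff.1 (h ▸ IntermediateField.fg_adjoin_of_finite (Set.finite_range u))

theorem not_sml_of_top {S : Set E} (h : IntermediateField.adjoin ℂ S = ⊤) : ¬ Sml S := fun h1 =>
  h1 (by
    rw [h, Algebra.isAlgebraic_iff_isIntegral]
    exact Algebra.isIntegral_of_surjective IntermediateField.topEquiv.surjective)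

variable [Algebra.EssFiniteType ℂ F]

/-- over a fixed centre the degree of a flag is proportional to the residue degree -/
theorem exists_prop (P : PModel ℂ F) (d : ℕ) (U₀ : RZ ℂ F) :
    ∃ (κ : Type) (_ : Field κ) (_ : Algebra ℂ κ) (_ : Algebra.EssFiniteType ℂ κ) (ρ : F → κ) (h : ℤ),
      (dim ℂ κ = d → h ≠ 0) ∧ (h ≠ 0 → Bg (oP P) d U₀) ∧
      ∀ (V : RZ ℂ F) (W : RZ ℂ (Rf V)), Dvs V → Dvs W → Gz (oP P) U₀ (fl V W).V →
        Gz (oP P) (fl V W).V U₀ → ∃ α : κ →ₐ[ℂ] Rf W,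
          (∀ x ∈ loc (oP P) U₀, (fl V W).r x = α (ρ x)) ∧ fd P d V W = deg α * h := by
  obtain ⟨i, hi, -⟩ := Br.exists_chart (P := P) U₀
  obtain ⟨κ, _, _, ρ, h1, h2⟩ := exists_res hi
  have := essFT_of_adjoin h1
  have hy : ∀ j, P.y j / P.y i ∈ loc (oP P) U₀ := fun j => chart_le_loc hi (div_mem_chart P.y i j)
  obtain ⟨α₀, h3⟩ := h2 _ (LP.at U₀) Gz.rfl Gz.rfl
  refine ⟨κ, inferInstance, inferInstance, this, ρ,
    bnum (List.replicate d (mxf ℂ fun j => ρ (P.y j / P.y i))), fun hd => ?_, fun h => ?_,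
    fun V W hV hW h4 h5 => ?_⟩
  · have h4 : ρ (P.y i / P.y i) = 1 := α₀.injective (show α₀ _ = α₀ 1 by
      rw [← h3 _ (hy i), div_self (P.y_ne i), Pl.r_one, map_one])
    have h5 : (mxf ℂ fun j => ρ (P.y j / P.y i)).sf = ⊤ := by
      refine eq_top_iff.2 (h1 ▸ IntermediateField.adjoin_le_iff.2 ?_)
      rintro _ ⟨j, rfl⟩
      simpa [h4] using div_mem_sf (mem_Sec_mxf (k := ℂ) (fun j => ρ (P.y j / P.y i)) j)
        (mem_Sec_mxf (k := ℂ) (fun j => ρ (P.y j / P.y i)) i)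
    refine (bnum_pos (by simp [hd]) fun x hx => ?_).ne'
    rw [List.eq_of_mem_replicate hx]
    exact ⟨(free_mxf _).nef, (free_mxf _).big (not_not.1 (not_sml_of_top h5))⟩
  · obtain ⟨y, h4, h5⟩ := exists_ind (not_sml_of_top h1) (d := d)
      (by simpa using (length_of_ne h).symm)
    choose j hj using h4
    refine ⟨fun l => P.y (j l) / P.y i, fun l => hy _,
      (Geo.resInd_iff (lnr_plV U₀) fun l => mem_of_loc (hy _)).2 ?_⟩
    have h6 : (fun l => (plV U₀).r (P.y (j l) / P.y i)) = α₀ ∘ y :=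
      funext fun l => (h3 _ (hy _)).trans (congrArg α₀ (hj l))
    rw [h6]
    exact h5.map' α₀.injective
  · have := Geo.essFT_Rf hV
    have := Geo.essFT_Rf hW
    obtain ⟨α, h6⟩ := h2 _ (fl V W) h4 h5
    refine ⟨α, h6, ?_⟩
    rw [fd_eq (i := i) (by simpa using h4 1 (P.y i) (by simpa using Br.y_mem_Sec i) (by simpa using hi)),
      ← bnum_pb, List.map_replicate, pb_mxf]
    simp only [h6 _ (hy _)]

/-- flags of nonzero degree have a big centre -/
theorem bg_of_fd {W : RZ ℂ (Rf V)} (hV : Dvs V) (hW : Dvs W) (h : fd P d V W ≠ 0) :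
    Bg (oP P) d (fl V W).V := by
  obtain ⟨κ, _, _, _, ρ, c, -, h1, h2⟩ := exists_prop P d (fl V W).V
  obtain ⟨α, -, h3⟩ := h2 V W hV hW Gz.rfl Gz.rfl
  exact h1 (right_ne_zero_of_mul (h3 ▸ h))

end Crest.Agent.X262.Sym65
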