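import Crest.Agent.X262.FG.Prm0

/-!
# Row 262, road B, SYM (helper65), part 1: small places

* `Reg P T`   : every member of `T` defines a morphism from `P` to the projective line;
* `Sml S`     : the field is not algebraic over the subfield generated by `S`;
* `sml_one`   : a divisorial valuation which is not a prime of `P` is small;
* `sml_two`   : over such a valuation every place at which an effective divisor starts to vanish
  is small.
-/

set_option autoImplicit false
set_option linter.unusedSectionVars false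

noncomputable section

namespace Crest.Agent.X262.Sym65

open Crest.Agent.X277 Crest.Agent.X277.Lef Crest.Agent.X277.AN.G1 Crest.Agent.X277.BD
open Crest.Agent.X277.BD.Cyc (Lnr Rf plV lnr_plV surj_plV)
open Crest.Agent.X277.BD.Br (At oP)
open Crest.Agent.X277.Pst (Prm loc Dvs)
open Crest.Agent.X277.Cns (Ov)
open Crest.Agent.R276.DivVal_858 (ResInd)
open Crest.Agent.X262.Geo (od)

variable {F E E' : Type} [Field F] [Algebra ℂ F] [Field E] [Algebra ℂ E] [Field E'] [Algebra ℂ E']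
  {P : PModel ℂ F}

/-- every member of `T` defines a morphism from `P` to the projective line -/
def Reg (P : PModel ℂ F) (T : Set F) : Prop :=
  ∀ t ∈ T, ∀ x : Pts P, t ∈ (lp x).O ∨ t⁻¹ ∈ (lp x).O

/-- `E` is not algebraic over the field generated by `S` -/
def Sml (S : Set E) : Prop := ¬ Algebra.IsAlgebraic (IntermediateField.adjoin ℂ S) E

theorem Sml.of_le {S S' : Set E} (h : Sml S') (hle : S ⊆ IntermediateField.adjoin ℂ S') :
    Sml S := fun h1 => h ⟨fun x =>
  (h1.1 x).tower_top_of_subalgebra_le (A := (IntermediateField.adjoin ℂ S).toSubalgebra)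
    (B := (IntermediateField.adjoin ℂ S').toSubalgebra) (IntermediateField.adjoin_le_iff.2 hle)⟩

theorem Sml.finrank {S : Set E} (h : Sml S) :
    Module.finrank (IntermediateField.adjoin ℂ S) E = 0 :=
  Module.finrank_of_not_finite fun _ => h inferInstance

theorem exists_ind [Algebra.EssFiniteType ℂ E] {S : Set E} (h : ¬ Sml S) {d : ℕ}
    (hd : dim ℂ E = d) : ∃ y : Fin d → E, (∀ i, y i ∈ S) ∧ AlgebraicIndependent ℂ y := by
  have h1 : Algebra.IsAlgebraic (Algebra.adjoin ℂ S) E :=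
    IntermediateField.isAlgebraic_adjoin_iff_top.1 (not_not.1 h)
  obtain ⟨t, ht, hb⟩ := exists_isTranscendenceBasis_subset (R := ℂ) S
  have h2 := hb.cardinalMk_eq_trdeg
  rw [trdeg_eq_dim, hd] at h2
  obtain ⟨e⟩ := Cardinal.mk_eq_nat_iff.1 h2
  exact ⟨fun i => e.symm i, fun i => ht (e.symm i).2, hb.1.comp _ e.symm.injective⟩

theorem lp_le_loc {V : RZ ℂ F} {x : Pts P} (hx : Ov x V.1) {f : F} (hf : f ∈ (lp x).O) :
    f ∈ loc (oP P) V := by
  obtain ⟨i, hi⟩ := exists_pat x
  have h1 : ∀ y ∈ P.A i, y ∈ loc (oP P) V := fun y hy =>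
    Geo.mem_loc_of_chart Br.free_oP (Br.y_mem_Sec i) (Br.at_y hi V hx)
      fun W hW => FG.Prm5.chart_le hW y hy
  obtain ⟨a, ha, c, hc, h0, h2⟩ := (mem_lp_iff hi).1 hf
  have h3 := mul_mem (h1 a ha) (Neg.inv_mem_loc (h1 c hc) (Br.ev_ne_iff'.1 h0 V hx))
  rwa [← h2, mul_inv_cancel_right₀ (LP.ne_zero_of_ne h0)] at h3

/-- the residues of `T` lie in the field generated by the residues of the local ring -/
theorem Reg.sub {T : Set F} (h : Reg P T) (x : Pts P) {r : F → E} (hr : ∀ f, r f⁻¹ = (r f)⁻¹) :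
    r '' T ⊆ IntermediateField.adjoin ℂ (r '' (lp x).O) := by
  rintro _ ⟨t, ht, rfl⟩
  rcases h t ht x with h1 | h1
  · exact IntermediateField.subset_adjoin _ _ ⟨t, h1, rfl⟩
  · rw [← inv_inv t, hr]
    exact inv_mem (IntermediateField.subset_adjoin _ _ ⟨_, h1, rfl⟩)

variable [Algebra.EssFiniteType ℂ F]

/-- a divisorial valuation which is not a prime of the model is small -/
theorem sml_one {T : Set F} (hT : Reg P T) {V : RZ ℂ F} (hV : Dvs V) (h : ¬ Prm (oP P) V) :
    Sml ((plV V).r '' T) := by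
  obtain ⟨x, hx⟩ := Br.exists_ov' P V
  refine Sml.of_le (by_contra fun h1 => h ⟨hV.ne_top, ?_⟩) (hT.sub x Pl.r_inv)
  have := Geo.essFT_Rf hV
  obtain ⟨y, hy, hi⟩ := exists_ind h1 (d := Gj.dm ℂ F - 1)
    (by rw [Geo.dm_eq, Geo.dim_Rf' hV]; rfl)
  choose z hz hzy using hy
  refine ⟨z, fun i => lp_le_loc hx (hz i), (Geo.resInd_iff (lnr_plV V) fun i => hx _ (hz i)).2 ?_⟩
  simpa only [hzy] using hi

theorem ind_option {W : RZ ℂ E} {ι : Type} {y : ι → E} (hy : ResInd ℂ W.1 y) {u : E} (h0 : u ≠ 0)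
    (hu : W.v u < 1) : AlgebraicIndependent ℂ fun o : Option ι => o.elim u y := by
  rw [hy.algInd.option_iff_transcendental]
  intro h
  obtain ⟨q, hq, hqu⟩ := h.exists_nonzero_coeff_and_aeval_eq_zero (mem_nonZeroDivisors_of_ne_zero h0)
  have h1 : ∀ a : Algebra.adjoin ℂ (Set.range y), W.v a ≤ 1 ∧ (a ≠ 0 → W.v a = 1) := by
    rintro ⟨a, ha⟩
    rw [Algebra.adjoin_range_eq_range_aeval] at ha
    obtain ⟨p, rfl⟩ := ha
    by_cases hp : p = 0
    · subst hp
      exact ⟨by simp, fun h => (h (Subtype.ext (map_zero _))).elim⟩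
    · exact ⟨(hy.2 p hp).le, fun _ => hy.2 p hp⟩
  have h2 : ∀ p : Polynomial (Algebra.adjoin ℂ (Set.range y)), W.v (Polynomial.aeval u p) ≤ 1 := by
    intro p
    rw [Polynomial.aeval_eq_sum_range]
    refine W.v.map_sum_le fun i _ => ?_
    rw [Algebra.smul_def, map_mul, map_pow]
    exact mul_le_one' (h1 _).1 (pow_le_one' hu.le i)
  rw [← Polynomial.X_mul_divX_add q, map_add, map_mul, Polynomial.aeval_X, Polynomial.aeval_C,
    add_eq_zero_iff_neg_eq] at hqu
  have h3 := (h1 _).2 hq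
  change W.v (algebraMap _ E (q.coeff 0)) = 1 at h3
  rw [← hqu, Valuation.map_neg, map_mul] at h3
  exact ((mul_le_of_le_one_right' (h2 _)).trans_lt hu).ne h3

/-- over a divisorial valuation which is not a prime of the model, the places at which an effective
divisor of the model starts to vanish are small -/
theorem sml_two {T : Set F} (hT : Reg P T) {V : RZ ℂ F} (hV : Dvs V) (h : ¬ Prm (oP P) V)
    {a : BD ℂ F} (ha : a ∈ Br.On P) (h0 : 0 ≤ a) (h1 : a.val V = 1) {W : RZ ℂ (Rf V)} (hW : Dvs W)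
    (h2 : od W ((plV V).res a) ≠ 0) : Sml ((fun f => (plV W).r ((plV V).r f)) '' T) := by
  obtain ⟨x, hx⟩ := Br.exists_ov' P ((plV V).cm W)
  have hxV : Ov x V.1 := fun f hf => (hx f hf).1
  refine Sml.of_le (by_contra fun h3 => h ⟨hV.ne_top, ?_⟩)
    (hT.sub x fun f => by rw [Pl.r_inv, Pl.r_inv])
  have := Geo.essFT_Rf hV
  have := Geo.essFT_Rf hW
  obtain ⟨y, hy, hi⟩ := exists_ind h3 rfl
  choose z hz hzy using hy
  obtain ⟨g, hg⟩ := ha x
  have hg1 : g⁻¹ ∈ (lp x).O := by simpa using hg.div_mem (nonneg_iff.1 h0)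
  have hg2 : V.v g = 1 := (hg V hxV).trans h1
  have hg3 : (plV V).r g ≠ 0 := Pl.r_ne_zero_iff.2 hg2
  have hg4 : W.v ((plV V).r g⁻¹) < 1 := by
    refine lt_of_le_of_ne (RZ.le_one_iff.2 (hx _ hg1).2) fun h4 => h2 ((Geo.od_eq_zero hW).2 ?_)
    rw [Pl.r_inv, map_inv₀, inv_eq_one] at h4
    rw [Pl.val_res (p := plV V) h1 (hg _ hx), h4]
  have h5 := ind_option (W := W) (y := fun i => (plV V).r (z i))
    ((Geo.resInd_iff (lnr_plV W) fun i => (hx _ (hz i)).2).2 (by simpa only [hzy] using hi))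
    (by rw [Pl.r_inv]; exact inv_ne_zero hg3) hg4
  have hc : Fintype.card (Option (Fin (dim ℂ (Rf W)))) = Gj.dm ℂ F - 1 := by
    rw [Fintype.card_option, Fintype.card_fin, Geo.dm_eq, Geo.dim_Rf' hV, Geo.dim_Rf' hW]
    rfl
  let e := Fintype.equivFinOfCardEq hc
  have h6 : ∀ o : Option (Fin (dim ℂ (Rf W))), o.elim g⁻¹ z ∈ (lp x).O := by
    rintro (_ | i)
    exacts [hg1, hz i]
  refine ⟨fun i => (e.symm i).elim g⁻¹ z, fun i => lp_le_loc hxV (h6 _),
    (Geo.resInd_iff (lnr_plV V) fun i => hxV _ (h6 _)).2 ?_⟩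
  have h7 : (fun i => (plV V).r ((e.symm i).elim g⁻¹ z)) =
      (fun o : Option (Fin (dim ℂ (Rf W))) => o.elim ((plV V).r g⁻¹) fun i => (plV V).r (z i)) ∘
        e.symm := funext fun i => by
    rw [Function.comp_apply]
    cases e.symm i <;> rfl
  rw [h7]
  exact h5.comp _ e.symm.injective

end Crest.Agent.X262.Sym65
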