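import Crest.Agent.X262.Sym65.Num
import Crest.Agent.X262.Sym65.Cal
import Crest.Agent.X277.Unf.Main

/-!
# Row 262, road B, SYM (helper65), part 6: symmetry of the intersection of two divisors

* `fin_cut` : the numbers `cut D φ V` have finite support on every b-divisor;
* `sym`, `symStmt`.
-/

set_option autoImplicit false
set_option linter.unusedSectionVars false

noncomputable section

namespace Crest.Agent.X262.Sym65

open Crest.Agent.X277 Crest.Agent.X277.Lef Crest.Agent.X277.AN.G1 Crest.Agent.X277.BD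
open Crest.Agent.X277.BD.Cyc (Lnr Rf plV lnr_plV surj_plV)
open Crest.Agent.X277.BD.Br (At oP)
open Crest.Agent.X277.Pst
open Crest.Agent.X262.Mod (Gz Car IsMod gz_of_le gz_of_loc)
open Crest.Agent.X262.Geo (od dg)
open Crest.Agent.X262.FG.Prm5
open Crest.Agent.X262.Hb

variable {K E : Type} [Field K] [Algebra ℂ K] [Field E] [Algebra ℂ E] {B : Th} {Z : Set (RZ ℂ K)}
  {φ : PF B K} {T : Finset K} {P : PModel ℂ K} {D A a : BD ℂ K} {U V U₀ : RZ ℂ K} {d : ℕ}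

theorem Reg.loc {S : Set K} (h : Reg P S) {t : K} (ht : t ∈ S) (U : RZ ℂ K) :
    t ∈ loc (oP P) U ∨ t⁻¹ ∈ loc (oP P) U := by
  obtain ⟨x, hx⟩ := Br.exists_ov' P U
  exact (h t ht x).imp (lp_le_loc hx) (lp_le_loc hx)

theorem res_sum (p : Pl ℂ K ℂ E) {ι : Type*} (s : Finset ι) (b : ι → BD ℂ K)
    (h : ∀ i ∈ s, (b i).val p.V = 1) :
    (∑ i ∈ s, b i).val p.V = 1 ∧ p.res (∑ i ∈ s, b i) = ∑ i ∈ s, p.res (b i) := by
  classical
  induction s using Finset.induction_on with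
  | empty => exact ⟨rfl, by simp⟩
  | insert i s hi ih =>
    obtain ⟨h1, h2⟩ := ih fun j hj => h j (Finset.mem_insert_of_mem hj)
    have h3 := h i (Finset.mem_insert_self _ _)
    rw [Finset.sum_insert hi, Finset.sum_insert hi, val_add, h1, h3, Pl.res_add h3 h1, h2]
    exact ⟨mul_one _, rfl⟩

theorem Lc.van_sml (hB : B.Ax) [Algebra.EssFiniteType ℂ E] (h : Lc B Z φ T) {p : LP K E}
    (hp : p.V ∈ Z) (hs : Sml (p.r '' T)) : B.itg E (φ E p) = 0 := by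
  have := essFT_adjoin' (T.finite_toSet.image p.r)
  refine h.van hB hp (IntermediateField.adjoin ℂ (p.r '' T)).val
    (fun t ht => ⟨⟨_, IntermediateField.subset_adjoin _ _ ⟨t, ht, rfl⟩⟩, rfl⟩) fun hd => ?_
  exact ((deg_pos_iff (IntermediateField.adjoin ℂ (p.r '' T)).val).2 hd).ne' hs.finrank

variable [Algebra.EssFiniteType ℂ K]

theorem exists_reg (T : Finset K) (S : Finset (BD ℂ K)) :
    ∃ P : PModel ℂ K, Reg P T ∧ ∀ a ∈ S, a ∈ Br.On P := by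
  classical
  obtain ⟨P, hP⟩ := Unf.exists_on (S ∪ T.image fun t => mxf ℂ ![1, t])
  refine ⟨P, fun t ht x => ?_, fun a ha => hP a (Finset.mem_union_left _ ha)⟩
  obtain ⟨i, -, hi⟩ := Br.gn_of_mem (s := ![1, t]) ⟨0, one_ne_zero⟩
    (hP _ (Finset.mem_union_right _ (Finset.mem_image_of_mem _ ht))) x
  fin_cases i
  · exact Or.inl (by simpa using hi 1)
  · exact Or.inr (by simpa using hi 0)

theorem Lc.van_one (hB : B.Ax) (h : Lc B Z φ T) (hT : Reg P T) (hV : Dvs V) (h1 : V ∈ Z)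
    (hp : ¬ Prm (oP P) V) : i1 φ V = 0 := by
  have := Geo.essFT_Rf hV
  exact h.van_sml hB (p := LP.at V) h1 (sml_one hT hV hp)

theorem Lc.van_cut (hB : B.Ax) (h : Lc B (Sup D) φ T) (h' : Lc B (Sup D) (cf B D * φ) T)
    (hT : Reg P T) (hD : D ∈ Br.On P) (h0 : 0 ≤ D) (hV : Dvs V) (hp : ¬ Prm (oP P) V) :
    cut D φ V = 0 := by
  unfold cut
  split_ifs with h1
  · have := Geo.essFT_Rf hV
    refine sm_eq_zero fun W hW h2 => ?_
    have := Geo.essFT_Rf hW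
    refine h.van_sml hB (p := fl V W) (fun h3 => h2 ((Geo.od_eq_zero hW).2
      ((val_res_one_iff h1).2 h3))) ?_
    rw [show (fl V W).r = _ from funext (fl_r V W)]
    exact sml_two hT hV hp hD h0 h1 hW h2
  · exact h'.van_one hB hT hV h1 hp

/-- finite support of the cut -/
theorem fin_cut (hB : B.Ax) (h0 : 0 ≤ D) (h : Liv B (Sup D) φ) (A : BD ℂ K) : Fs A (cut D φ) := by
  classical
  obtain ⟨T₁, h1⟩ := h.lc
  obtain ⟨T₂, h2⟩ := ((Liv.cf hB D).mul h).lc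
  obtain ⟨P, h3, h4⟩ := exists_reg (T₁ ∪ T₂) {D}
  refine (Geo.fin_od (isMod_oP P) A).subset fun V ⟨hV, h5⟩ => ⟨by_contra fun h6 => h5 ?_,
    fun e => h5 (by rw [e, Int.cast_zero, zero_mul])⟩
  rw [(h1.mono Finset.subset_union_left).van_cut hB (h2.mono Finset.subset_union_right) h3
    (h4 D (by simp)) h0 hV h6, mul_zero]

theorem Lc.prop (hB : B.Ax) (hd : dim ℂ K = d + 2) (h : Lc B (Sup D) φ T) (hT : Reg P T)
    (hD : D ∈ Br.On P) (h0 : 0 ≤ D) (hU : U₀ ∈ Sup D) :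
    ∃ c, ∀ V, Dvs V → Prop1 P d U₀ c V (i2 φ V) := by
  classical
  obtain ⟨κ, _, _, _, ρ, n, h1, -, h2⟩ := exists_prop P d U₀
  obtain ⟨x, hx⟩ := h κ fun t => if t ∈ loc (oP P) U₀ then some (ρ t) else none
  refine ⟨B.itg κ x / n, fun V hV W hW h3 h4 => ?_⟩
  have := Geo.essFT_Rf hV
  have := Geo.essFT_Rf hW
  obtain ⟨α, h5, h6⟩ := h2 V W hV hW h3 h4
  have h7 : Vals T (fun t => if t ∈ loc (oP P) U₀ then some (ρ t) else none) α (fl V W) := by
    intro t ht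
    by_cases h7 : t ∈ loc (oP P) U₀
    · simp only [if_pos h7, vl_of_mem (mem_of_loc (h3.loc_le h7)), h5 t h7, Option.map_some]
    · have h8 := (hT.loc ht U₀).resolve_left h7
      have h9 : t ≠ 0 := fun e => h7 (e ▸ zero_mem _)
      simp only [if_neg h7, Option.map_none]
      refine vl_of_not_mem fun h10 => h7 ?_
      have h11 := RZ.le_one_iff.2 h10
      rw [← inv_inv t, map_inv₀, inv_le_one₀ (RZ.pos (inv_ne_zero h9))] at h11
      simpa using Neg.inv_mem_loc h8 (h4.unit (h3.loc_le h8)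
        ((RZ.le_one_iff.2 (mem_of_loc (h3.loc_le h8))).antisymm h11))
  have h8 : i2 φ V W = deg α * B.itg κ x := by
    rw [← hB.deg, ← hx _ α (fl V W) (fun h8 => hU (gz_val (car_of_on hD) h0 h4 h8)) h7]
    rfl
  rw [h8, h6]
  by_cases h9 : dim ℂ κ = d
  · have h10 : (n : ℂ) ≠ 0 := Int.cast_ne_zero.2 (h1 h9)
    push_cast
    field_simp
  · have h10 : dim ℂ (Rf W) = d := by
      have := Geo.dim_Rf' hV
      have := Geo.dim_Rf' hW
      omega
    simp [deg_eq_zero α (h10 ▸ Ne.symm h9)]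

/-- the prime divisor `V` as a Cartier divisor -/
structure Gm (P : PModel ℂ K) (V : RZ ℂ K) (γ : BD ℂ K) : Prop where
  on : γ ∈ Br.On P
  pos : 0 ≤ γ
  one : od V γ = 1
  ne : ∀ V', Prm (oP P) V' → V' ≠ V → γ.val V' = 1

theorem exists_gm (hV : Prm (oP P) V) : ∃ γ, Gm P V γ :=
  ⟨gam P ⟨_, isPD_of_prm hV⟩, gam_mem _, gam_nonneg _, ord_gam_self ⟨_, isPD_of_prm hV⟩,
    fun V' hV' h => (Geo.od_eq_zero hV'.dvs).1 (ord_gam_ne (e' := ⟨_, isPD_of_prm hV'⟩) fun e => h (by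
      rw [← Geo.rz_nv hV.dvs, ← Geo.rz_nv hV'.dvs]
      congr 1
      exact congrArg Subtype.val e))⟩

theorem Gm.le {γ : BD ℂ K} (h : Gm P V γ) (hD : D ∈ Br.On P) (h0 : 0 ≤ D) (h1 : od V D ≠ 0) :
    γ ≤ D :=
  Geo.le_of_od (isMod_oP P) (car_of_on h.on) (car_of_on hD) fun V' hV' => by
    have h2 := Geo.od_nonneg (V := V') h0
    rcases eq_or_ne V' V with rfl | h3
    · rw [h.one]
      omega
    · rwa [(Geo.od_eq_zero hV'.dvs).2 (h.ne V' hV' h3)]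

theorem eq_sum_gm {S : Finset (RZ ℂ K)} {γ : RZ ℂ K → BD ℂ K}
    (hγ : ∀ V ∈ S, Gm P V (γ V)) (ha : a ∈ Br.On P)
    (h : ∀ V, Prm (oP P) V → od V a ≠ 0 → V ∈ S) : a = ∑ V ∈ S, od V a • γ V := by
  refine Geo.eq_of_od (isMod_oP P) (car_of_on ha)
    (car_of_on (sum_mem fun V hV => zsmul_mem (hγ V hV).on _)) fun V hV => ?_
  have h1 : ∀ V' ∈ S, V' ≠ V → od V (od V' a • γ V') = 0 := fun V' hV' h1 => by
    rw [map_zsmul, (Geo.od_eq_zero hV.dvs).2 ((hγ V' hV').ne V hV h1.symm), smul_zero]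
  rw [map_sum]
  by_cases h2 : V ∈ S
  · rw [Finset.sum_eq_single_of_mem V h2 h1, map_zsmul, (hγ V h2).one, smul_eq_mul, mul_one]
  · rw [Finset.sum_eq_zero fun V' hV' => h1 V' hV' fun e => h2 (e ▸ hV')]
    exact by_contra fun h3 => h2 (h V hV h3)

theorem Lc.recip (hB : B.Ax) (h : Lc B (Sup D) φ T) (hT : Reg P T) (hD : D ∈ Br.On P) (h0 : 0 ≤ D)
    {V₁ V₂ : RZ ℂ K} {γ₁ γ₂ : BD ℂ K} (hne : V₁ ≠ V₂) (p₁ : Prm (oP P) V₁) (p₂ : Prm (oP P) V₂)
    (g₁ : Gm P V₁ γ₁) (g₂ : Gm P V₂ γ₂) (h1 : od V₁ D ≠ 0) :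
    sm ((plV V₁).res γ₂) (i2 φ V₁) = sm ((plV V₂).res γ₁) (i2 φ V₂) := by
  have := Geo.essFT_Rf p₁.dvs
  have := Geo.essFT_Rf p₂.dvs
  by_cases hd : ∃ d, dim ℂ K = d + 2
  · obtain ⟨d, hd⟩ := hd
    refine Sym65.recip hd (car_of_on g₁.on) (car_of_on g₂.on) g₁.pos g₂.pos hne p₁ p₂ g₁.one g₂.one
      g₁.ne g₂.ne fun U₀ hU => ?_
    obtain ⟨c, hc⟩ := h.prop hB hd hT hD h0
      (sup_mono (le_inf g₁.pos g₂.pos) (inf_le_left.trans (g₁.le hD h0 h1)) hU)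
    exact ⟨c, hc _ p₁.dvs, hc _ p₂.dvs⟩
  · rw [sm_eq_zero fun W hW _ => (hd ⟨_, by rw [Geo.dim_Rf' p₁.dvs, Geo.dim_Rf' hW]⟩).elim,
      sm_eq_zero fun W hW _ => (hd ⟨_, by rw [Geo.dim_Rf' p₂.dvs, Geo.dim_Rf' hW]⟩).elim]

theorem tame (hB : B.Ax) (h : Liv B (Sup D) φ) (hV : Dvs V) (A : BD ℂ K) :
    od V D * i1 (cf B A * φ) V - od V A * cut D φ V =
      sm ((plV V).res (od V D • A - od V A • D)) (i2 φ V) := by
  unfold cut
  split_ifs with h1
  · rw [(Geo.od_eq_zero hV).2 h1, zero_smul, zero_sub, ← neg_smul, Pl.res_zsmul (p := plV V) h1,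
      sm_zsmul]
    simp
  · rw [← i1_cf hB h hV h1 ((Geo.od_eq_zero hV).1 (by simp [mul_comm]))]
    simp only [i1, cf, Pi.mul_apply, map_sub, map_zsmul, sub_mul, smul_mul_assoc]
    simp only [zsmul_eq_mul]

/-- **symmetry** -/
theorem sym (hB : B.Ax) (h0 : 0 ≤ D) (h : Liv B (Sup D) φ) (A : BD ℂ K) :
    sm D (i1 (cf B A * φ)) = sm A (cut D φ) := by
  classical
  obtain ⟨T₁, t₁⟩ := h.lc
  obtain ⟨T₂, t₂⟩ := ((Liv.cf hB D).mul h).lc
  obtain ⟨T₃, t₃⟩ := ((Liv.cf hB A).mul h).lc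
  obtain ⟨P, hT, hP⟩ := exists_reg (T₁ ∪ (T₂ ∪ T₃)) {D, A}
  replace t₁ := t₁.mono (Finset.subset_union_left (s₂ := T₂ ∪ T₃))
  replace t₂ := t₂.mono ((Finset.subset_union_left (s₂ := T₃)).trans
    (Finset.subset_union_right (s₁ := T₁)))
  replace t₃ := t₃.mono ((Finset.subset_union_right (s₁ := T₂)).trans
    (Finset.subset_union_right (s₁ := T₁)))
  have hD := hP D (by simp)
  have hA := hP A (by simp)
  obtain ⟨S, hS⟩ : ∃ S : Finset (RZ ℂ K), ∀ V, V ∈ S ↔ Prm (oP P) V ∧ (od V D ≠ 0 ∨ od V A ≠ 0) :=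
    ⟨((Geo.fin_od (isMod_oP P) D).union (Geo.fin_od (isMod_oP P) A)).toFinset, fun V => by
      simp [and_or_left]⟩
  have hp : ∀ V ∈ S, Prm (oP P) V := fun V hV => ((hS V).1 hV).1
  have hg : ∀ V, ∃ γ, V ∈ S → Gm P V γ := fun V => by
    by_cases hV : V ∈ S
    · exact (exists_gm (hp V hV)).imp fun _ h _ => h
    · exact ⟨0, fun h => (hV h).elim⟩
  choose γ hγ using hg
  have eD := eq_sum_gm hγ hD fun V hV h1 => (hS V).2 ⟨hV, Or.inl h1⟩
  have eA := eq_sum_gm hγ hA fun V hV h1 => (hS V).2 ⟨hV, Or.inr h1⟩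
  rw [sm_eq_sum _ _ S (fun V hV => (hp V hV).dvs) fun V hV h1 h2 =>
      t₃.van_one hB hT hV ((mem_sup hV).2 h2) fun h3 => h1 ((hS V).2 ⟨h3, Or.inl h2⟩),
    sm_eq_sum _ _ S (fun V hV => (hp V hV).dvs) fun V hV h1 h2 =>
      t₁.van_cut hB t₂ hT hD h0 hV fun h3 => h1 ((hS V).2 ⟨h3, Or.inr h2⟩),
    ← sub_eq_zero, ← Finset.sum_sub_distrib]
  let c : RZ ℂ K → RZ ℂ K → ℤ := fun V V' => od V D * od V' A - od V A * od V' D
  let R : RZ ℂ K → RZ ℂ K → ℂ := fun V V' => c V V' * sm ((plV V).res (γ V')) (i2 φ V)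
  have hc : ∀ V V', c V V' ≠ 0 → V' ≠ V ∧ (od V D ≠ 0 ∨ od V' D ≠ 0) := fun V V' h1 =>
    ⟨fun e => h1 (by simp only [c, e]; ring), by
      by_contra h2
      push Not at h2
      exact h1 (by simp [c, h2.1, h2.2])⟩
  have h1 : ∀ V ∈ S, od V D * i1 (cf B A * φ) V - od V A * cut D φ V = ∑ V' ∈ S, R V V' := by
    intro V hV
    have := Geo.essFT_Rf (hp V hV).dvs
    have h1 : od V D • A - od V A • D = ∑ V' ∈ S, c V V' • γ V' := by
      simp only [c, sub_smul, mul_smul, Finset.sum_sub_distrib, ← Finset.smul_sum, ← eD, ← eA]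
    have h2 : ∀ V' ∈ S, (c V V' • γ V').val V = 1 ∧
        (plV V).res (c V V' • γ V') = c V V' • (plV V).res (γ V') := fun V' hV' => by
      by_cases h2 : c V V' = 0
      · simp [h2]
      · have h3 := (hγ V' hV').ne V (hp V hV) (hc V V' h2).1.symm
        exact ⟨by rw [val_zsmul, h3, one_zpow], Pl.res_zsmul (p := plV V) h3 _⟩
    rw [tame hB h (hp V hV).dvs, h1, (res_sum (plV V) S _ fun V' hV' => (h2 V' hV').1).2,
      (sm_sum_left S _ fun V' hV' => ?_).2]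
    · exact Finset.sum_congr rfl fun V' hV' => by rw [(h2 V' hV').2, sm_zsmul]
    · refine fin_i2 hB h (hp V hV).dvs fun W hW h3 => ?_
      have h4 : c V V' ≠ 0 := fun e => h3 (by simp [e])
      rcases (hc V V' h4).2 with h5 | h5
      · exact cl_sup D _ _ (fl_le V W) ((mem_sup (hp V hV).dvs).2 h5)
      · refine sup_mono (hγ V' hV').pos ((hγ V' hV').le hD h0 h5) fun h6 => h3 ?_
        refine (Geo.od_eq_zero hW).2 ((val_res_one_iff (h2 V' hV').1).2 ?_)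
        rw [val_zsmul, fl_V, h6, one_zpow]
  have h2 : ∀ V ∈ S, ∀ V' ∈ S, R V V' = -R V' V := by
    intro V hV V' hV'
    have h2 : c V V' = -c V' V := by simp only [c]; ring
    by_cases h3 : c V V' = 0
    · simp [R, h3, neg_eq_zero.1 (h2 ▸ h3)]
    · obtain ⟨h4, h5⟩ := hc V V' h3
      simp only [R, h2, Int.cast_neg, neg_mul, neg_inj]
      congr 1
      rcases h5 with h5 | h5
      · exact t₁.recip hB hT hD h0 h4.symm (hp V hV) (hp V' hV') (hγ V hV) (hγ V' hV') h5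
      · exact (t₁.recip hB hT hD h0 h4 (hp V' hV') (hp V hV) (hγ V' hV') (hγ V hV) h5).symm
  rw [Finset.sum_congr rfl h1, ← self_eq_neg, ← Finset.sum_neg_distrib]
  refine Finset.sum_comm.trans (Finset.sum_congr rfl fun V hV => ?_)
  rw [← Finset.sum_neg_distrib]
  exact Finset.sum_congr rfl fun V' hV' => h2 V' hV' V hV

theorem symStmt : SymStmt := fun _ hB _ _ _ _ _ A _ h0 h => sym hB h0 h A

/-- a principal divisor cuts to zero -/
theorem sm_pr_cut (hB : B.Ax) (h0 : 0 ≤ D) (h : Liv B (Sup D) φ) (f : K) :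
    sm (pr ℂ f) (cut D φ) = 0 := by
  rw [← sym hB h0 h, cf_pr hB, zero_mul]
  exact sm_eq_zero fun V _ _ => i1_zero V

end Crest.Agent.X262.Sym65
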